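import Vale.Agent.P224.POS.Sos

/-!
Certificate data: the elements of the blocks.
-/

namespace Vale.Agent.P224.PU.U1413

open Vale.Agent.P224.POS

noncomputable section

/-- elements of block 0 (1*00) -/
def els0 : List (Nat × PE) := [
  (1, .sub (.sub (.add (.add (.v 3) (.mul (.c 6) (.mul (.pow (.v 0) 2) (.v 3)))) (.mul (.pow (.v 0) 4) (.v 3))) (.mul (.c 4) (.mul (.v 0) (.v 3)))) (.mul (.c 4) (.mul (.pow (.v 0) 3) (.v 3)))),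
  (1, .sub (.sub (.add (.add (.pow (.v 1) 2) (.mul (.c 6) (.mul (.pow (.v 0) 2) (.pow (.v 1) 2)))) (.mul (.pow (.v 0) 4) (.pow (.v 1) 2))) (.mul (.c 4) (.mul (.v 0) (.pow (.v 1) 2)))) (.mul (.c 4) (.mul (.pow (.v 0) 3) (.pow (.v 1) 2)))),
  (1, .sub (.sub (.add (.add (.mul (.pow (.v 1) 2) (.v 3)) (.mul (.c 6) (.mul (.mul (.pow (.v 0) 2) (.pow (.v 1) 2)) (.v 3)))) (.mul (.mul (.pow (.v 0) 4) (.pow (.v 1) 2)) (.v 3))) (.mul (.c 4) (.mul (.mul (.v 0) (.pow (.v 1) 2)) (.v 3)))) (.mul (.c 4) (.mul (.mul (.pow (.v 0) 3) (.pow (.v 1) 2)) (.v 3)))),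
  (1, .sub (.sub (.add (.add (.mul (.pow (.v 2) 2) (.v 3)) (.mul (.c 6) (.mul (.mul (.pow (.v 0) 2) (.pow (.v 2) 2)) (.v 3)))) (.mul (.mul (.pow (.v 0) 4) (.pow (.v 2) 2)) (.v 3))) (.mul (.c 4) (.mul (.mul (.v 0) (.pow (.v 2) 2)) (.v 3)))) (.mul (.c 4) (.mul (.mul (.pow (.v 0) 3) (.pow (.v 2) 2)) (.v 3)))),
  (1, .sub (.sub (.add (.add (.mul (.v 3) (.v 6)) (.mul (.c 6) (.mul (.mul (.pow (.v 0) 2) (.v 3)) (.v 6)))) (.mul (.mul (.pow (.v 0) 4) (.v 3)) (.v 6))) (.mul (.c 4) (.mul (.mul (.v 0) (.v 3)) (.v 6)))) (.mul (.c 4) (.mul (.mul (.pow (.v 0) 3) (.v 3)) (.v 6)))),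
  (2, .sub (.sub (.add (.add (.mul (.v 1) (.v 2)) (.mul (.c 6) (.mul (.mul (.pow (.v 0) 2) (.v 1)) (.v 2)))) (.mul (.mul (.pow (.v 0) 4) (.v 1)) (.v 2))) (.mul (.c 4) (.mul (.mul (.v 0) (.v 1)) (.v 2)))) (.mul (.c 4) (.mul (.mul (.pow (.v 0) 3) (.v 1)) (.v 2)))),
  (2, .sub (.sub (.sub (.sub (.sub (.add (.add (.add (.add (.mul (.c 4) (.mul (.v 0) (.v 7))) (.mul (.c 4) (.mul (.pow (.v 0) 3) (.v 7)))) (.mul (.v 3) (.v 7))) (.mul (.c 6) (.mul (.mul (.pow (.v 0) 2) (.v 3)) (.v 7)))) (.mul (.mul (.pow (.v 0) 4) (.v 3)) (.v 7))) (.v 7)) (.mul (.c 6) (.mul (.pow (.v 0) 2) (.v 7)))) (.mul (.pow (.v 0) 4) (.v 7))) (.mul (.c 4) (.mul (.mul (.v 0) (.v 3)) (.v 7)))) (.mul (.c 4) (.mul (.mul (.pow (.v 0) 3) (.v 3)) (.v 7)))),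
  (1, .sub (.sub (.add (.v 0) (.mul (.c 3) (.pow (.v 0) 3))) (.mul (.c 3) (.pow (.v 0) 2))) (.pow (.v 0) 4)),
  (1, .sub (.sub (.add (.mul (.v 0) (.v 3)) (.mul (.c 3) (.mul (.pow (.v 0) 3) (.v 3)))) (.mul (.c 3) (.mul (.pow (.v 0) 2) (.v 3)))) (.mul (.pow (.v 0) 4) (.v 3))),
  (1, .sub (.sub (.add (.mul (.v 0) (.pow (.v 1) 2)) (.mul (.c 3) (.mul (.pow (.v 0) 3) (.pow (.v 1) 2)))) (.mul (.c 3) (.mul (.pow (.v 0) 2) (.pow (.v 1) 2)))) (.mul (.pow (.v 0) 4) (.pow (.v 1) 2))),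
  (1, .sub (.sub (.add (.mul (.v 0) (.pow (.v 2) 2)) (.mul (.c 3) (.mul (.pow (.v 0) 3) (.pow (.v 2) 2)))) (.mul (.c 3) (.mul (.pow (.v 0) 2) (.pow (.v 2) 2)))) (.mul (.pow (.v 0) 4) (.pow (.v 2) 2))),
  (1, .sub (.sub (.add (.mul (.mul (.v 0) (.pow (.v 1) 2)) (.v 3)) (.mul (.c 3) (.mul (.mul (.pow (.v 0) 3) (.pow (.v 1) 2)) (.v 3)))) (.mul (.c 3) (.mul (.mul (.pow (.v 0) 2) (.pow (.v 1) 2)) (.v 3)))) (.mul (.mul (.pow (.v 0) 4) (.pow (.v 1) 2)) (.v 3))),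
  (1, .sub (.sub (.add (.mul (.mul (.v 0) (.pow (.v 2) 2)) (.v 3)) (.mul (.c 3) (.mul (.mul (.pow (.v 0) 3) (.pow (.v 2) 2)) (.v 3)))) (.mul (.c 3) (.mul (.mul (.pow (.v 0) 2) (.pow (.v 2) 2)) (.v 3)))) (.mul (.mul (.pow (.v 0) 4) (.pow (.v 2) 2)) (.v 3))),
  (1, .sub (.sub (.add (.mul (.mul (.v 0) (.v 1)) (.v 4)) (.mul (.c 3) (.mul (.mul (.pow (.v 0) 3) (.v 1)) (.v 4)))) (.mul (.c 3) (.mul (.mul (.pow (.v 0) 2) (.v 1)) (.v 4)))) (.mul (.mul (.pow (.v 0) 4) (.v 1)) (.v 4))),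
  (1, .sub (.sub (.add (.mul (.mul (.v 0) (.v 2)) (.v 5)) (.mul (.c 3) (.mul (.mul (.pow (.v 0) 3) (.v 2)) (.v 5)))) (.mul (.c 3) (.mul (.mul (.pow (.v 0) 2) (.v 2)) (.v 5)))) (.mul (.mul (.pow (.v 0) 4) (.v 2)) (.v 5))),
  (1, .sub (.sub (.add (.mul (.v 0) (.v 6)) (.mul (.c 3) (.mul (.pow (.v 0) 3) (.v 6)))) (.mul (.c 3) (.mul (.pow (.v 0) 2) (.v 6)))) (.mul (.pow (.v 0) 4) (.v 6))),
  (1, .sub (.sub (.add (.mul (.mul (.v 0) (.v 3)) (.v 6)) (.mul (.c 3) (.mul (.mul (.pow (.v 0) 3) (.v 3)) (.v 6)))) (.mul (.c 3) (.mul (.mul (.pow (.v 0) 2) (.v 3)) (.v 6)))) (.mul (.mul (.pow (.v 0) 4) (.v 3)) (.v 6))),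
  (2, .sub (.sub (.add (.mul (.mul (.v 0) (.v 1)) (.v 2)) (.mul (.c 3) (.mul (.mul (.pow (.v 0) 3) (.v 1)) (.v 2)))) (.mul (.c 3) (.mul (.mul (.pow (.v 0) 2) (.v 1)) (.v 2)))) (.mul (.mul (.pow (.v 0) 4) (.v 1)) (.v 2))),
  (2, .sub (.sub (.add (.mul (.mul (.v 0) (.v 2)) (.v 4)) (.mul (.c 3) (.mul (.mul (.pow (.v 0) 3) (.v 2)) (.v 4)))) (.mul (.c 3) (.mul (.mul (.pow (.v 0) 2) (.v 2)) (.v 4)))) (.mul (.mul (.pow (.v 0) 4) (.v 2)) (.v 4))),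
  (2, .sub (.sub (.add (.mul (.mul (.v 0) (.v 1)) (.v 5)) (.mul (.c 3) (.mul (.mul (.pow (.v 0) 3) (.v 1)) (.v 5)))) (.mul (.c 3) (.mul (.mul (.pow (.v 0) 2) (.v 1)) (.v 5)))) (.mul (.mul (.pow (.v 0) 4) (.v 1)) (.v 5))),
  (2, .sub (.sub (.add (.mul (.v 0) (.v 7)) (.mul (.c 3) (.mul (.pow (.v 0) 3) (.v 7)))) (.mul (.c 3) (.mul (.pow (.v 0) 2) (.v 7)))) (.mul (.pow (.v 0) 4) (.v 7))),
  (2, .sub (.sub (.add (.mul (.mul (.v 0) (.v 3)) (.v 7)) (.mul (.c 3) (.mul (.mul (.pow (.v 0) 3) (.v 3)) (.v 7)))) (.mul (.c 3) (.mul (.mul (.pow (.v 0) 2) (.v 3)) (.v 7)))) (.mul (.mul (.pow (.v 0) 4) (.v 3)) (.v 7))),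
  (1, .sub (.add (.pow (.v 0) 2) (.pow (.v 0) 4)) (.mul (.c 2) (.pow (.v 0) 3))),
  (1, .sub (.add (.mul (.pow (.v 0) 2) (.v 3)) (.mul (.pow (.v 0) 4) (.v 3))) (.mul (.c 2) (.mul (.pow (.v 0) 3) (.v 3)))),
  (1, .sub (.add (.mul (.pow (.v 0) 2) (.pow (.v 1) 2)) (.mul (.pow (.v 0) 4) (.pow (.v 1) 2))) (.mul (.c 2) (.mul (.pow (.v 0) 3) (.pow (.v 1) 2)))),
  (1, .sub (.add (.mul (.pow (.v 0) 2) (.pow (.v 2) 2)) (.mul (.pow (.v 0) 4) (.pow (.v 2) 2))) (.mul (.c 2) (.mul (.pow (.v 0) 3) (.pow (.v 2) 2)))),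
  (1, .sub (.add (.mul (.mul (.pow (.v 0) 2) (.pow (.v 1) 2)) (.v 3)) (.mul (.mul (.pow (.v 0) 4) (.pow (.v 1) 2)) (.v 3))) (.mul (.c 2) (.mul (.mul (.pow (.v 0) 3) (.pow (.v 1) 2)) (.v 3)))),
  (1, .sub (.add (.mul (.mul (.pow (.v 0) 2) (.pow (.v 2) 2)) (.v 3)) (.mul (.mul (.pow (.v 0) 4) (.pow (.v 2) 2)) (.v 3))) (.mul (.c 2) (.mul (.mul (.pow (.v 0) 3) (.pow (.v 2) 2)) (.v 3)))),
  (1, .sub (.add (.mul (.mul (.pow (.v 0) 2) (.v 1)) (.v 4)) (.mul (.mul (.pow (.v 0) 4) (.v 1)) (.v 4))) (.mul (.c 2) (.mul (.mul (.pow (.v 0) 3) (.v 1)) (.v 4)))),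
  (1, .sub (.add (.mul (.mul (.pow (.v 0) 2) (.v 2)) (.v 5)) (.mul (.mul (.pow (.v 0) 4) (.v 2)) (.v 5))) (.mul (.c 2) (.mul (.mul (.pow (.v 0) 3) (.v 2)) (.v 5)))),
  (1, .sub (.add (.mul (.pow (.v 0) 2) (.v 6)) (.mul (.pow (.v 0) 4) (.v 6))) (.mul (.c 2) (.mul (.pow (.v 0) 3) (.v 6)))),
  (1, .sub (.add (.mul (.mul (.pow (.v 0) 2) (.v 3)) (.v 6)) (.mul (.mul (.pow (.v 0) 4) (.v 3)) (.v 6))) (.mul (.c 2) (.mul (.mul (.pow (.v 0) 3) (.v 3)) (.v 6)))),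
  (2, .sub (.add (.mul (.mul (.pow (.v 0) 2) (.v 1)) (.v 2)) (.mul (.mul (.pow (.v 0) 4) (.v 1)) (.v 2))) (.mul (.c 2) (.mul (.mul (.pow (.v 0) 3) (.v 1)) (.v 2)))),
  (2, .sub (.add (.mul (.mul (.pow (.v 0) 2) (.v 2)) (.v 4)) (.mul (.mul (.pow (.v 0) 4) (.v 2)) (.v 4))) (.mul (.c 2) (.mul (.mul (.pow (.v 0) 3) (.v 2)) (.v 4)))),
  (2, .sub (.add (.mul (.mul (.pow (.v 0) 2) (.v 1)) (.v 5)) (.mul (.mul (.pow (.v 0) 4) (.v 1)) (.v 5))) (.mul (.c 2) (.mul (.mul (.pow (.v 0) 3) (.v 1)) (.v 5)))),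
  (2, .sub (.add (.mul (.pow (.v 0) 2) (.v 7)) (.mul (.pow (.v 0) 4) (.v 7))) (.mul (.c 2) (.mul (.pow (.v 0) 3) (.v 7)))),
  (2, .sub (.add (.mul (.mul (.pow (.v 0) 2) (.v 3)) (.v 7)) (.mul (.mul (.pow (.v 0) 4) (.v 3)) (.v 7))) (.mul (.c 2) (.mul (.mul (.pow (.v 0) 3) (.v 3)) (.v 7)))),
  (1, .sub (.pow (.v 0) 3) (.pow (.v 0) 4)),
  (1, .sub (.mul (.pow (.v 0) 3) (.v 3)) (.mul (.pow (.v 0) 4) (.v 3))),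
  (1, .sub (.mul (.pow (.v 0) 3) (.pow (.v 1) 2)) (.mul (.pow (.v 0) 4) (.pow (.v 1) 2))),
  (1, .sub (.mul (.pow (.v 0) 3) (.pow (.v 2) 2)) (.mul (.pow (.v 0) 4) (.pow (.v 2) 2))),
  (1, .sub (.mul (.mul (.pow (.v 0) 3) (.pow (.v 1) 2)) (.v 3)) (.mul (.mul (.pow (.v 0) 4) (.pow (.v 1) 2)) (.v 3))),
  (1, .sub (.mul (.mul (.pow (.v 0) 3) (.pow (.v 2) 2)) (.v 3)) (.mul (.mul (.pow (.v 0) 4) (.pow (.v 2) 2)) (.v 3))),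
  (1, .sub (.mul (.mul (.pow (.v 0) 3) (.v 1)) (.v 4)) (.mul (.mul (.pow (.v 0) 4) (.v 1)) (.v 4))),
  (1, .sub (.mul (.mul (.pow (.v 0) 3) (.v 2)) (.v 5)) (.mul (.mul (.pow (.v 0) 4) (.v 2)) (.v 5))),
  (1, .sub (.mul (.pow (.v 0) 3) (.v 6)) (.mul (.pow (.v 0) 4) (.v 6))),
  (1, .sub (.mul (.mul (.pow (.v 0) 3) (.v 3)) (.v 6)) (.mul (.mul (.pow (.v 0) 4) (.v 3)) (.v 6))),
  (2, .sub (.mul (.mul (.pow (.v 0) 3) (.v 1)) (.v 2)) (.mul (.mul (.pow (.v 0) 4) (.v 1)) (.v 2))),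
  (2, .sub (.mul (.mul (.pow (.v 0) 3) (.v 2)) (.v 4)) (.mul (.mul (.pow (.v 0) 4) (.v 2)) (.v 4))),
  (2, .sub (.mul (.mul (.pow (.v 0) 3) (.v 1)) (.v 5)) (.mul (.mul (.pow (.v 0) 4) (.v 1)) (.v 5))),
  (2, .sub (.mul (.pow (.v 0) 3) (.v 7)) (.mul (.pow (.v 0) 4) (.v 7))),
  (2, .sub (.mul (.mul (.pow (.v 0) 3) (.v 3)) (.v 7)) (.mul (.mul (.pow (.v 0) 4) (.v 3)) (.v 7))),
  (1, .pow (.v 0) 4),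
  (1, .mul (.pow (.v 0) 4) (.v 3)),
  (1, .mul (.pow (.v 0) 4) (.pow (.v 1) 2)),
  (1, .mul (.pow (.v 0) 4) (.pow (.v 2) 2)),
  (1, .mul (.mul (.pow (.v 0) 4) (.pow (.v 1) 2)) (.v 3)),
  (1, .mul (.mul (.pow (.v 0) 4) (.pow (.v 2) 2)) (.v 3)),
  (1, .mul (.mul (.pow (.v 0) 4) (.v 1)) (.v 4)),
  (1, .mul (.mul (.pow (.v 0) 4) (.v 2)) (.v 5)),
  (1, .mul (.pow (.v 0) 4) (.v 6)),
  (1, .mul (.mul (.pow (.v 0) 4) (.v 3)) (.v 6)),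
  (2, .mul (.mul (.pow (.v 0) 4) (.v 1)) (.v 2)),
  (2, .mul (.mul (.pow (.v 0) 4) (.v 2)) (.v 4)),
  (2, .mul (.mul (.pow (.v 0) 4) (.v 1)) (.v 5)),
  (2, .mul (.pow (.v 0) 4) (.v 7)),
  (2, .mul (.mul (.pow (.v 0) 4) (.v 3)) (.v 7))]

/-- elements of block 1 (1*01) -/
def els1 : List (Nat × PE) := [
  (1, .sub (.sub (.add (.add (.mul (.v 1) (.v 2)) (.mul (.c 6) (.mul (.mul (.pow (.v 0) 2) (.v 1)) (.v 2)))) (.mul (.mul (.pow (.v 0) 4) (.v 1)) (.v 2))) (.mul (.c 4) (.mul (.mul (.v 0) (.v 1)) (.v 2)))) (.mul (.c 4) (.mul (.mul (.pow (.v 0) 3) (.v 1)) (.v 2)))),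
  (1, .sub (.sub (.add (.add (.mul (.v 3) (.v 7)) (.mul (.c 6) (.mul (.mul (.pow (.v 0) 2) (.v 3)) (.v 7)))) (.mul (.mul (.pow (.v 0) 4) (.v 3)) (.v 7))) (.mul (.c 4) (.mul (.mul (.v 0) (.v 3)) (.v 7)))) (.mul (.c 4) (.mul (.mul (.pow (.v 0) 3) (.v 3)) (.v 7)))),
  (2, .sub (.sub (.sub (.sub (.add (.add (.add (.add (.add (.mul (.c 4) (.v 0)) (.mul (.c 4) (.pow (.v 0) 3))) (.v 3)) (.mul (.c 6) (.mul (.pow (.v 0) 2) (.v 3)))) (.mul (.pow (.v 0) 4) (.v 3))) (.c (-1))) (.mul (.c 6) (.pow (.v 0) 2))) (.pow (.v 0) 4)) (.mul (.c 4) (.mul (.v 0) (.v 3)))) (.mul (.c 4) (.mul (.pow (.v 0) 3) (.v 3)))),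
  (2, .sub (.sub (.add (.add (.pow (.v 2) 2) (.mul (.c 6) (.mul (.pow (.v 0) 2) (.pow (.v 2) 2)))) (.mul (.pow (.v 0) 4) (.pow (.v 2) 2))) (.mul (.c 4) (.mul (.v 0) (.pow (.v 2) 2)))) (.mul (.c 4) (.mul (.pow (.v 0) 3) (.pow (.v 2) 2)))),
  (2, .sub (.sub (.sub (.sub (.sub (.add (.add (.add (.add (.mul (.c 4) (.mul (.v 0) (.pow (.v 1) 2))) (.mul (.c 4) (.mul (.pow (.v 0) 3) (.pow (.v 1) 2)))) (.mul (.pow (.v 1) 2) (.v 3))) (.mul (.c 6) (.mul (.mul (.pow (.v 0) 2) (.pow (.v 1) 2)) (.v 3)))) (.mul (.mul (.pow (.v 0) 4) (.pow (.v 1) 2)) (.v 3))) (.pow (.v 1) 2)) (.mul (.c 6) (.mul (.pow (.v 0) 2) (.pow (.v 1) 2)))) (.mul (.pow (.v 0) 4) (.pow (.v 1) 2))) (.mul (.c 4) (.mul (.mul (.v 0) (.pow (.v 1) 2)) (.v 3)))) (.mul (.c 4) (.mul (.mul (.pow (.v 0) 3) (.pow (.v 1) 2)) (.v 3)))),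
  (2, .sub (.sub (.add (.add (.mul (.pow (.v 2) 2) (.v 3)) (.mul (.c 6) (.mul (.mul (.pow (.v 0) 2) (.pow (.v 2) 2)) (.v 3)))) (.mul (.mul (.pow (.v 0) 4) (.pow (.v 2) 2)) (.v 3))) (.mul (.c 4) (.mul (.mul (.v 0) (.pow (.v 2) 2)) (.v 3)))) (.mul (.c 4) (.mul (.mul (.pow (.v 0) 3) (.pow (.v 2) 2)) (.v 3)))),
  (2, .sub (.sub (.sub (.sub (.sub (.add (.add (.add (.add (.mul (.c 4) (.mul (.v 0) (.v 6))) (.mul (.c 4) (.mul (.pow (.v 0) 3) (.v 6)))) (.mul (.v 3) (.v 6))) (.mul (.c 6) (.mul (.mul (.pow (.v 0) 2) (.v 3)) (.v 6)))) (.mul (.mul (.pow (.v 0) 4) (.v 3)) (.v 6))) (.v 6)) (.mul (.c 6) (.mul (.pow (.v 0) 2) (.v 6)))) (.mul (.pow (.v 0) 4) (.v 6))) (.mul (.c 4) (.mul (.mul (.v 0) (.v 3)) (.v 6)))) (.mul (.c 4) (.mul (.mul (.pow (.v 0) 3) (.v 3)) (.v 6)))),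
  (1, .sub (.sub (.add (.mul (.mul (.v 0) (.v 1)) (.v 2)) (.mul (.c 3) (.mul (.mul (.pow (.v 0) 3) (.v 1)) (.v 2)))) (.mul (.c 3) (.mul (.mul (.pow (.v 0) 2) (.v 1)) (.v 2)))) (.mul (.mul (.pow (.v 0) 4) (.v 1)) (.v 2))),
  (1, .sub (.sub (.add (.mul (.mul (.v 0) (.v 2)) (.v 4)) (.mul (.c 3) (.mul (.mul (.pow (.v 0) 3) (.v 2)) (.v 4)))) (.mul (.c 3) (.mul (.mul (.pow (.v 0) 2) (.v 2)) (.v 4)))) (.mul (.mul (.pow (.v 0) 4) (.v 2)) (.v 4))),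
  (1, .sub (.sub (.add (.mul (.mul (.v 0) (.v 1)) (.v 5)) (.mul (.c 3) (.mul (.mul (.pow (.v 0) 3) (.v 1)) (.v 5)))) (.mul (.c 3) (.mul (.mul (.pow (.v 0) 2) (.v 1)) (.v 5)))) (.mul (.mul (.pow (.v 0) 4) (.v 1)) (.v 5))),
  (1, .sub (.sub (.add (.mul (.v 0) (.v 7)) (.mul (.c 3) (.mul (.pow (.v 0) 3) (.v 7)))) (.mul (.c 3) (.mul (.pow (.v 0) 2) (.v 7)))) (.mul (.pow (.v 0) 4) (.v 7))),
  (1, .sub (.sub (.add (.mul (.mul (.v 0) (.v 3)) (.v 7)) (.mul (.c 3) (.mul (.mul (.pow (.v 0) 3) (.v 3)) (.v 7)))) (.mul (.c 3) (.mul (.mul (.pow (.v 0) 2) (.v 3)) (.v 7)))) (.mul (.mul (.pow (.v 0) 4) (.v 3)) (.v 7))),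
  (2, .sub (.sub (.add (.v 0) (.mul (.c 3) (.pow (.v 0) 3))) (.mul (.c 3) (.pow (.v 0) 2))) (.pow (.v 0) 4)),
  (2, .sub (.sub (.add (.mul (.v 0) (.v 3)) (.mul (.c 3) (.mul (.pow (.v 0) 3) (.v 3)))) (.mul (.c 3) (.mul (.pow (.v 0) 2) (.v 3)))) (.mul (.pow (.v 0) 4) (.v 3))),
  (2, .sub (.sub (.add (.mul (.v 0) (.pow (.v 1) 2)) (.mul (.c 3) (.mul (.pow (.v 0) 3) (.pow (.v 1) 2)))) (.mul (.c 3) (.mul (.pow (.v 0) 2) (.pow (.v 1) 2)))) (.mul (.pow (.v 0) 4) (.pow (.v 1) 2))),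
  (2, .sub (.sub (.add (.mul (.v 0) (.pow (.v 2) 2)) (.mul (.c 3) (.mul (.pow (.v 0) 3) (.pow (.v 2) 2)))) (.mul (.c 3) (.mul (.pow (.v 0) 2) (.pow (.v 2) 2)))) (.mul (.pow (.v 0) 4) (.pow (.v 2) 2))),
  (2, .sub (.sub (.add (.mul (.mul (.v 0) (.pow (.v 1) 2)) (.v 3)) (.mul (.c 3) (.mul (.mul (.pow (.v 0) 3) (.pow (.v 1) 2)) (.v 3)))) (.mul (.c 3) (.mul (.mul (.pow (.v 0) 2) (.pow (.v 1) 2)) (.v 3)))) (.mul (.mul (.pow (.v 0) 4) (.pow (.v 1) 2)) (.v 3))),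
  (2, .sub (.sub (.add (.mul (.mul (.v 0) (.pow (.v 2) 2)) (.v 3)) (.mul (.c 3) (.mul (.mul (.pow (.v 0) 3) (.pow (.v 2) 2)) (.v 3)))) (.mul (.c 3) (.mul (.mul (.pow (.v 0) 2) (.pow (.v 2) 2)) (.v 3)))) (.mul (.mul (.pow (.v 0) 4) (.pow (.v 2) 2)) (.v 3))),
  (2, .sub (.sub (.add (.mul (.mul (.v 0) (.v 1)) (.v 4)) (.mul (.c 3) (.mul (.mul (.pow (.v 0) 3) (.v 1)) (.v 4)))) (.mul (.c 3) (.mul (.mul (.pow (.v 0) 2) (.v 1)) (.v 4)))) (.mul (.mul (.pow (.v 0) 4) (.v 1)) (.v 4))),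
  (2, .sub (.sub (.add (.mul (.mul (.v 0) (.v 2)) (.v 5)) (.mul (.c 3) (.mul (.mul (.pow (.v 0) 3) (.v 2)) (.v 5)))) (.mul (.c 3) (.mul (.mul (.pow (.v 0) 2) (.v 2)) (.v 5)))) (.mul (.mul (.pow (.v 0) 4) (.v 2)) (.v 5))),
  (2, .sub (.sub (.add (.mul (.v 0) (.v 6)) (.mul (.c 3) (.mul (.pow (.v 0) 3) (.v 6)))) (.mul (.c 3) (.mul (.pow (.v 0) 2) (.v 6)))) (.mul (.pow (.v 0) 4) (.v 6))),
  (2, .sub (.sub (.add (.mul (.mul (.v 0) (.v 3)) (.v 6)) (.mul (.c 3) (.mul (.mul (.pow (.v 0) 3) (.v 3)) (.v 6)))) (.mul (.c 3) (.mul (.mul (.pow (.v 0) 2) (.v 3)) (.v 6)))) (.mul (.mul (.pow (.v 0) 4) (.v 3)) (.v 6))),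
  (1, .sub (.add (.mul (.mul (.pow (.v 0) 2) (.v 1)) (.v 2)) (.mul (.mul (.pow (.v 0) 4) (.v 1)) (.v 2))) (.mul (.c 2) (.mul (.mul (.pow (.v 0) 3) (.v 1)) (.v 2)))),
  (1, .sub (.add (.mul (.mul (.pow (.v 0) 2) (.v 2)) (.v 4)) (.mul (.mul (.pow (.v 0) 4) (.v 2)) (.v 4))) (.mul (.c 2) (.mul (.mul (.pow (.v 0) 3) (.v 2)) (.v 4)))),
  (1, .sub (.add (.mul (.mul (.pow (.v 0) 2) (.v 1)) (.v 5)) (.mul (.mul (.pow (.v 0) 4) (.v 1)) (.v 5))) (.mul (.c 2) (.mul (.mul (.pow (.v 0) 3) (.v 1)) (.v 5)))),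
  (1, .sub (.add (.mul (.pow (.v 0) 2) (.v 7)) (.mul (.pow (.v 0) 4) (.v 7))) (.mul (.c 2) (.mul (.pow (.v 0) 3) (.v 7)))),
  (1, .sub (.add (.mul (.mul (.pow (.v 0) 2) (.v 3)) (.v 7)) (.mul (.mul (.pow (.v 0) 4) (.v 3)) (.v 7))) (.mul (.c 2) (.mul (.mul (.pow (.v 0) 3) (.v 3)) (.v 7)))),
  (2, .sub (.add (.pow (.v 0) 2) (.pow (.v 0) 4)) (.mul (.c 2) (.pow (.v 0) 3))),
  (2, .sub (.add (.mul (.pow (.v 0) 2) (.v 3)) (.mul (.pow (.v 0) 4) (.v 3))) (.mul (.c 2) (.mul (.pow (.v 0) 3) (.v 3)))),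
  (2, .sub (.add (.mul (.pow (.v 0) 2) (.pow (.v 1) 2)) (.mul (.pow (.v 0) 4) (.pow (.v 1) 2))) (.mul (.c 2) (.mul (.pow (.v 0) 3) (.pow (.v 1) 2)))),
  (2, .sub (.add (.mul (.pow (.v 0) 2) (.pow (.v 2) 2)) (.mul (.pow (.v 0) 4) (.pow (.v 2) 2))) (.mul (.c 2) (.mul (.pow (.v 0) 3) (.pow (.v 2) 2)))),
  (2, .sub (.add (.mul (.mul (.pow (.v 0) 2) (.pow (.v 1) 2)) (.v 3)) (.mul (.mul (.pow (.v 0) 4) (.pow (.v 1) 2)) (.v 3))) (.mul (.c 2) (.mul (.mul (.pow (.v 0) 3) (.pow (.v 1) 2)) (.v 3)))),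
  (2, .sub (.add (.mul (.mul (.pow (.v 0) 2) (.pow (.v 2) 2)) (.v 3)) (.mul (.mul (.pow (.v 0) 4) (.pow (.v 2) 2)) (.v 3))) (.mul (.c 2) (.mul (.mul (.pow (.v 0) 3) (.pow (.v 2) 2)) (.v 3)))),
  (2, .sub (.add (.mul (.mul (.pow (.v 0) 2) (.v 1)) (.v 4)) (.mul (.mul (.pow (.v 0) 4) (.v 1)) (.v 4))) (.mul (.c 2) (.mul (.mul (.pow (.v 0) 3) (.v 1)) (.v 4)))),
  (2, .sub (.add (.mul (.mul (.pow (.v 0) 2) (.v 2)) (.v 5)) (.mul (.mul (.pow (.v 0) 4) (.v 2)) (.v 5))) (.mul (.c 2) (.mul (.mul (.pow (.v 0) 3) (.v 2)) (.v 5)))),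
  (2, .sub (.add (.mul (.pow (.v 0) 2) (.v 6)) (.mul (.pow (.v 0) 4) (.v 6))) (.mul (.c 2) (.mul (.pow (.v 0) 3) (.v 6)))),
  (2, .sub (.add (.mul (.mul (.pow (.v 0) 2) (.v 3)) (.v 6)) (.mul (.mul (.pow (.v 0) 4) (.v 3)) (.v 6))) (.mul (.c 2) (.mul (.mul (.pow (.v 0) 3) (.v 3)) (.v 6)))),
  (1, .sub (.mul (.mul (.pow (.v 0) 3) (.v 1)) (.v 2)) (.mul (.mul (.pow (.v 0) 4) (.v 1)) (.v 2))),
  (1, .sub (.mul (.mul (.pow (.v 0) 3) (.v 2)) (.v 4)) (.mul (.mul (.pow (.v 0) 4) (.v 2)) (.v 4))),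
  (1, .sub (.mul (.mul (.pow (.v 0) 3) (.v 1)) (.v 5)) (.mul (.mul (.pow (.v 0) 4) (.v 1)) (.v 5))),
  (1, .sub (.mul (.pow (.v 0) 3) (.v 7)) (.mul (.pow (.v 0) 4) (.v 7))),
  (1, .sub (.mul (.mul (.pow (.v 0) 3) (.v 3)) (.v 7)) (.mul (.mul (.pow (.v 0) 4) (.v 3)) (.v 7))),
  (2, .sub (.pow (.v 0) 3) (.pow (.v 0) 4)),
  (2, .sub (.mul (.pow (.v 0) 3) (.v 3)) (.mul (.pow (.v 0) 4) (.v 3))),
  (2, .sub (.mul (.pow (.v 0) 3) (.pow (.v 1) 2)) (.mul (.pow (.v 0) 4) (.pow (.v 1) 2))),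
  (2, .sub (.mul (.pow (.v 0) 3) (.pow (.v 2) 2)) (.mul (.pow (.v 0) 4) (.pow (.v 2) 2))),
  (2, .sub (.mul (.mul (.pow (.v 0) 3) (.pow (.v 1) 2)) (.v 3)) (.mul (.mul (.pow (.v 0) 4) (.pow (.v 1) 2)) (.v 3))),
  (2, .sub (.mul (.mul (.pow (.v 0) 3) (.pow (.v 2) 2)) (.v 3)) (.mul (.mul (.pow (.v 0) 4) (.pow (.v 2) 2)) (.v 3))),
  (2, .sub (.mul (.mul (.pow (.v 0) 3) (.v 1)) (.v 4)) (.mul (.mul (.pow (.v 0) 4) (.v 1)) (.v 4))),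
  (2, .sub (.mul (.mul (.pow (.v 0) 3) (.v 2)) (.v 5)) (.mul (.mul (.pow (.v 0) 4) (.v 2)) (.v 5))),
  (2, .sub (.mul (.pow (.v 0) 3) (.v 6)) (.mul (.pow (.v 0) 4) (.v 6))),
  (2, .sub (.mul (.mul (.pow (.v 0) 3) (.v 3)) (.v 6)) (.mul (.mul (.pow (.v 0) 4) (.v 3)) (.v 6))),
  (1, .mul (.mul (.pow (.v 0) 4) (.v 1)) (.v 2)),
  (1, .mul (.mul (.pow (.v 0) 4) (.v 2)) (.v 4)),
  (1, .mul (.mul (.pow (.v 0) 4) (.v 1)) (.v 5)),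
  (1, .mul (.pow (.v 0) 4) (.v 7)),
  (1, .mul (.mul (.pow (.v 0) 4) (.v 3)) (.v 7)),
  (2, .pow (.v 0) 4),
  (2, .mul (.pow (.v 0) 4) (.v 3)),
  (2, .mul (.pow (.v 0) 4) (.pow (.v 1) 2)),
  (2, .mul (.pow (.v 0) 4) (.pow (.v 2) 2)),
  (2, .mul (.mul (.pow (.v 0) 4) (.pow (.v 1) 2)) (.v 3)),
  (2, .mul (.mul (.pow (.v 0) 4) (.pow (.v 2) 2)) (.v 3)),
  (2, .mul (.mul (.pow (.v 0) 4) (.v 1)) (.v 4)),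
  (2, .mul (.mul (.pow (.v 0) 4) (.v 2)) (.v 5)),
  (2, .mul (.pow (.v 0) 4) (.v 6)),
  (2, .mul (.mul (.pow (.v 0) 4) (.v 3)) (.v 6))]

/-- elements of block 2 (1*10) -/
def els2 : List (Nat × PE) := [
  (1, .sub (.sub (.add (.add (.v 1) (.mul (.c 6) (.mul (.pow (.v 0) 2) (.v 1)))) (.mul (.pow (.v 0) 4) (.v 1))) (.mul (.c 4) (.mul (.v 0) (.v 1)))) (.mul (.c 4) (.mul (.pow (.v 0) 3) (.v 1)))),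
  (1, .sub (.sub (.add (.add (.mul (.v 1) (.v 3)) (.mul (.c 6) (.mul (.mul (.pow (.v 0) 2) (.v 1)) (.v 3)))) (.mul (.mul (.pow (.v 0) 4) (.v 1)) (.v 3))) (.mul (.c 4) (.mul (.mul (.v 0) (.v 1)) (.v 3)))) (.mul (.c 4) (.mul (.mul (.pow (.v 0) 3) (.v 1)) (.v 3)))),
  (1, .sub (.sub (.add (.add (.pow (.v 1) 3) (.mul (.c 6) (.mul (.pow (.v 0) 2) (.pow (.v 1) 3)))) (.mul (.pow (.v 0) 4) (.pow (.v 1) 3))) (.mul (.c 4) (.mul (.v 0) (.pow (.v 1) 3)))) (.mul (.c 4) (.mul (.pow (.v 0) 3) (.pow (.v 1) 3)))),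
  (1, .sub (.sub (.add (.add (.mul (.v 1) (.pow (.v 2) 2)) (.mul (.c 6) (.mul (.mul (.pow (.v 0) 2) (.v 1)) (.pow (.v 2) 2)))) (.mul (.mul (.pow (.v 0) 4) (.v 1)) (.pow (.v 2) 2))) (.mul (.c 4) (.mul (.mul (.v 0) (.v 1)) (.pow (.v 2) 2)))) (.mul (.c 4) (.mul (.mul (.pow (.v 0) 3) (.v 1)) (.pow (.v 2) 2)))),
  (1, .sub (.sub (.add (.add (.mul (.v 1) (.v 6)) (.mul (.c 6) (.mul (.mul (.pow (.v 0) 2) (.v 1)) (.v 6)))) (.mul (.mul (.pow (.v 0) 4) (.v 1)) (.v 6))) (.mul (.c 4) (.mul (.mul (.v 0) (.v 1)) (.v 6)))) (.mul (.c 4) (.mul (.mul (.pow (.v 0) 3) (.v 1)) (.v 6)))),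
  (1, .sub (.sub (.add (.add (.mul (.v 2) (.v 7)) (.mul (.c 6) (.mul (.mul (.pow (.v 0) 2) (.v 2)) (.v 7)))) (.mul (.mul (.pow (.v 0) 4) (.v 2)) (.v 7))) (.mul (.c 4) (.mul (.mul (.v 0) (.v 2)) (.v 7)))) (.mul (.c 4) (.mul (.mul (.pow (.v 0) 3) (.v 2)) (.v 7)))),
  (2, .sub (.sub (.add (.add (.v 2) (.mul (.c 6) (.mul (.pow (.v 0) 2) (.v 2)))) (.mul (.pow (.v 0) 4) (.v 2))) (.mul (.c 4) (.mul (.v 0) (.v 2)))) (.mul (.c 4) (.mul (.pow (.v 0) 3) (.v 2)))),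
  (2, .sub (.sub (.add (.add (.mul (.v 2) (.v 3)) (.mul (.c 6) (.mul (.mul (.pow (.v 0) 2) (.v 2)) (.v 3)))) (.mul (.mul (.pow (.v 0) 4) (.v 2)) (.v 3))) (.mul (.c 4) (.mul (.mul (.v 0) (.v 2)) (.v 3)))) (.mul (.c 4) (.mul (.mul (.pow (.v 0) 3) (.v 2)) (.v 3)))),
  (2, .sub (.sub (.add (.add (.mul (.pow (.v 1) 2) (.v 2)) (.mul (.c 6) (.mul (.mul (.pow (.v 0) 2) (.pow (.v 1) 2)) (.v 2)))) (.mul (.mul (.pow (.v 0) 4) (.pow (.v 1) 2)) (.v 2))) (.mul (.c 4) (.mul (.mul (.v 0) (.pow (.v 1) 2)) (.v 2)))) (.mul (.c 4) (.mul (.mul (.pow (.v 0) 3) (.pow (.v 1) 2)) (.v 2)))),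
  (2, .sub (.sub (.add (.add (.pow (.v 2) 3) (.mul (.c 6) (.mul (.pow (.v 0) 2) (.pow (.v 2) 3)))) (.mul (.pow (.v 0) 4) (.pow (.v 2) 3))) (.mul (.c 4) (.mul (.v 0) (.pow (.v 2) 3)))) (.mul (.c 4) (.mul (.pow (.v 0) 3) (.pow (.v 2) 3)))),
  (2, .sub (.sub (.add (.add (.mul (.v 2) (.v 6)) (.mul (.c 6) (.mul (.mul (.pow (.v 0) 2) (.v 2)) (.v 6)))) (.mul (.mul (.pow (.v 0) 4) (.v 2)) (.v 6))) (.mul (.c 4) (.mul (.mul (.v 0) (.v 2)) (.v 6)))) (.mul (.c 4) (.mul (.mul (.pow (.v 0) 3) (.v 2)) (.v 6)))),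
  (2, .sub (.sub (.add (.add (.mul (.v 1) (.v 7)) (.mul (.c 6) (.mul (.mul (.pow (.v 0) 2) (.v 1)) (.v 7)))) (.mul (.mul (.pow (.v 0) 4) (.v 1)) (.v 7))) (.mul (.c 4) (.mul (.mul (.v 0) (.v 1)) (.v 7)))) (.mul (.c 4) (.mul (.mul (.pow (.v 0) 3) (.v 1)) (.v 7)))),
  (3, .sub (.sub (.add (.add (.v 1) (.mul (.c 6) (.mul (.pow (.v 0) 2) (.v 1)))) (.mul (.pow (.v 0) 4) (.v 1))) (.mul (.c 4) (.mul (.v 0) (.v 1)))) (.mul (.c 4) (.mul (.pow (.v 0) 3) (.v 1)))),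
  (1, .sub (.sub (.add (.mul (.v 0) (.v 1)) (.mul (.c 3) (.mul (.pow (.v 0) 3) (.v 1)))) (.mul (.c 3) (.mul (.pow (.v 0) 2) (.v 1)))) (.mul (.pow (.v 0) 4) (.v 1))),
  (1, .sub (.sub (.add (.mul (.mul (.v 0) (.v 1)) (.v 3)) (.mul (.c 3) (.mul (.mul (.pow (.v 0) 3) (.v 1)) (.v 3)))) (.mul (.c 3) (.mul (.mul (.pow (.v 0) 2) (.v 1)) (.v 3)))) (.mul (.mul (.pow (.v 0) 4) (.v 1)) (.v 3))),
  (1, .sub (.sub (.add (.mul (.v 0) (.pow (.v 1) 3)) (.mul (.c 3) (.mul (.pow (.v 0) 3) (.pow (.v 1) 3)))) (.mul (.c 3) (.mul (.pow (.v 0) 2) (.pow (.v 1) 3)))) (.mul (.pow (.v 0) 4) (.pow (.v 1) 3))),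
  (1, .sub (.sub (.add (.mul (.mul (.v 0) (.v 1)) (.pow (.v 2) 2)) (.mul (.c 3) (.mul (.mul (.pow (.v 0) 3) (.v 1)) (.pow (.v 2) 2)))) (.mul (.c 3) (.mul (.mul (.pow (.v 0) 2) (.v 1)) (.pow (.v 2) 2)))) (.mul (.mul (.pow (.v 0) 4) (.v 1)) (.pow (.v 2) 2))),
  (1, .sub (.sub (.add (.mul (.v 0) (.v 4)) (.mul (.c 3) (.mul (.pow (.v 0) 3) (.v 4)))) (.mul (.c 3) (.mul (.pow (.v 0) 2) (.v 4)))) (.mul (.pow (.v 0) 4) (.v 4))),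
  (1, .sub (.sub (.add (.mul (.mul (.v 0) (.v 3)) (.v 4)) (.mul (.c 3) (.mul (.mul (.pow (.v 0) 3) (.v 3)) (.v 4)))) (.mul (.c 3) (.mul (.mul (.pow (.v 0) 2) (.v 3)) (.v 4)))) (.mul (.mul (.pow (.v 0) 4) (.v 3)) (.v 4))),
  (1, .sub (.sub (.add (.mul (.mul (.v 0) (.v 1)) (.v 6)) (.mul (.c 3) (.mul (.mul (.pow (.v 0) 3) (.v 1)) (.v 6)))) (.mul (.c 3) (.mul (.mul (.pow (.v 0) 2) (.v 1)) (.v 6)))) (.mul (.mul (.pow (.v 0) 4) (.v 1)) (.v 6))),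
  (1, .sub (.sub (.add (.mul (.mul (.v 0) (.v 2)) (.v 7)) (.mul (.c 3) (.mul (.mul (.pow (.v 0) 3) (.v 2)) (.v 7)))) (.mul (.c 3) (.mul (.mul (.pow (.v 0) 2) (.v 2)) (.v 7)))) (.mul (.mul (.pow (.v 0) 4) (.v 2)) (.v 7))),
  (2, .sub (.sub (.add (.mul (.v 0) (.v 2)) (.mul (.c 3) (.mul (.pow (.v 0) 3) (.v 2)))) (.mul (.c 3) (.mul (.pow (.v 0) 2) (.v 2)))) (.mul (.pow (.v 0) 4) (.v 2))),
  (2, .sub (.sub (.add (.mul (.mul (.v 0) (.v 2)) (.v 3)) (.mul (.c 3) (.mul (.mul (.pow (.v 0) 3) (.v 2)) (.v 3)))) (.mul (.c 3) (.mul (.mul (.pow (.v 0) 2) (.v 2)) (.v 3)))) (.mul (.mul (.pow (.v 0) 4) (.v 2)) (.v 3))),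
  (2, .sub (.sub (.add (.mul (.mul (.v 0) (.pow (.v 1) 2)) (.v 2)) (.mul (.c 3) (.mul (.mul (.pow (.v 0) 3) (.pow (.v 1) 2)) (.v 2)))) (.mul (.c 3) (.mul (.mul (.pow (.v 0) 2) (.pow (.v 1) 2)) (.v 2)))) (.mul (.mul (.pow (.v 0) 4) (.pow (.v 1) 2)) (.v 2))),
  (2, .sub (.sub (.add (.mul (.v 0) (.pow (.v 2) 3)) (.mul (.c 3) (.mul (.pow (.v 0) 3) (.pow (.v 2) 3)))) (.mul (.c 3) (.mul (.pow (.v 0) 2) (.pow (.v 2) 3)))) (.mul (.pow (.v 0) 4) (.pow (.v 2) 3))),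
  (2, .sub (.sub (.add (.mul (.v 0) (.v 5)) (.mul (.c 3) (.mul (.pow (.v 0) 3) (.v 5)))) (.mul (.c 3) (.mul (.pow (.v 0) 2) (.v 5)))) (.mul (.pow (.v 0) 4) (.v 5))),
  (2, .sub (.sub (.add (.mul (.mul (.v 0) (.v 3)) (.v 5)) (.mul (.c 3) (.mul (.mul (.pow (.v 0) 3) (.v 3)) (.v 5)))) (.mul (.c 3) (.mul (.mul (.pow (.v 0) 2) (.v 3)) (.v 5)))) (.mul (.mul (.pow (.v 0) 4) (.v 3)) (.v 5))),
  (2, .sub (.sub (.add (.mul (.mul (.v 0) (.v 2)) (.v 6)) (.mul (.c 3) (.mul (.mul (.pow (.v 0) 3) (.v 2)) (.v 6)))) (.mul (.c 3) (.mul (.mul (.pow (.v 0) 2) (.v 2)) (.v 6)))) (.mul (.mul (.pow (.v 0) 4) (.v 2)) (.v 6))),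
  (2, .sub (.sub (.add (.mul (.mul (.v 0) (.v 1)) (.v 7)) (.mul (.c 3) (.mul (.mul (.pow (.v 0) 3) (.v 1)) (.v 7)))) (.mul (.c 3) (.mul (.mul (.pow (.v 0) 2) (.v 1)) (.v 7)))) (.mul (.mul (.pow (.v 0) 4) (.v 1)) (.v 7))),
  (3, .sub (.sub (.add (.mul (.v 0) (.v 1)) (.mul (.c 3) (.mul (.pow (.v 0) 3) (.v 1)))) (.mul (.c 3) (.mul (.pow (.v 0) 2) (.v 1)))) (.mul (.pow (.v 0) 4) (.v 1))),
  (1, .sub (.add (.mul (.pow (.v 0) 2) (.v 1)) (.mul (.pow (.v 0) 4) (.v 1))) (.mul (.c 2) (.mul (.pow (.v 0) 3) (.v 1)))),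
  (1, .sub (.add (.mul (.mul (.pow (.v 0) 2) (.v 1)) (.v 3)) (.mul (.mul (.pow (.v 0) 4) (.v 1)) (.v 3))) (.mul (.c 2) (.mul (.mul (.pow (.v 0) 3) (.v 1)) (.v 3)))),
  (1, .sub (.add (.mul (.pow (.v 0) 2) (.pow (.v 1) 3)) (.mul (.pow (.v 0) 4) (.pow (.v 1) 3))) (.mul (.c 2) (.mul (.pow (.v 0) 3) (.pow (.v 1) 3)))),
  (1, .sub (.add (.mul (.mul (.pow (.v 0) 2) (.v 1)) (.pow (.v 2) 2)) (.mul (.mul (.pow (.v 0) 4) (.v 1)) (.pow (.v 2) 2))) (.mul (.c 2) (.mul (.mul (.pow (.v 0) 3) (.v 1)) (.pow (.v 2) 2)))),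
  (1, .sub (.add (.mul (.pow (.v 0) 2) (.v 4)) (.mul (.pow (.v 0) 4) (.v 4))) (.mul (.c 2) (.mul (.pow (.v 0) 3) (.v 4)))),
  (1, .sub (.add (.mul (.mul (.pow (.v 0) 2) (.v 3)) (.v 4)) (.mul (.mul (.pow (.v 0) 4) (.v 3)) (.v 4))) (.mul (.c 2) (.mul (.mul (.pow (.v 0) 3) (.v 3)) (.v 4)))),
  (1, .sub (.add (.mul (.mul (.pow (.v 0) 2) (.v 1)) (.v 6)) (.mul (.mul (.pow (.v 0) 4) (.v 1)) (.v 6))) (.mul (.c 2) (.mul (.mul (.pow (.v 0) 3) (.v 1)) (.v 6)))),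
  (1, .sub (.add (.mul (.mul (.pow (.v 0) 2) (.v 2)) (.v 7)) (.mul (.mul (.pow (.v 0) 4) (.v 2)) (.v 7))) (.mul (.c 2) (.mul (.mul (.pow (.v 0) 3) (.v 2)) (.v 7)))),
  (2, .sub (.add (.mul (.pow (.v 0) 2) (.v 2)) (.mul (.pow (.v 0) 4) (.v 2))) (.mul (.c 2) (.mul (.pow (.v 0) 3) (.v 2)))),
  (2, .sub (.add (.mul (.mul (.pow (.v 0) 2) (.v 2)) (.v 3)) (.mul (.mul (.pow (.v 0) 4) (.v 2)) (.v 3))) (.mul (.c 2) (.mul (.mul (.pow (.v 0) 3) (.v 2)) (.v 3)))),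
  (2, .sub (.add (.mul (.mul (.pow (.v 0) 2) (.pow (.v 1) 2)) (.v 2)) (.mul (.mul (.pow (.v 0) 4) (.pow (.v 1) 2)) (.v 2))) (.mul (.c 2) (.mul (.mul (.pow (.v 0) 3) (.pow (.v 1) 2)) (.v 2)))),
  (2, .sub (.add (.mul (.pow (.v 0) 2) (.pow (.v 2) 3)) (.mul (.pow (.v 0) 4) (.pow (.v 2) 3))) (.mul (.c 2) (.mul (.pow (.v 0) 3) (.pow (.v 2) 3)))),
  (2, .sub (.add (.mul (.pow (.v 0) 2) (.v 5)) (.mul (.pow (.v 0) 4) (.v 5))) (.mul (.c 2) (.mul (.pow (.v 0) 3) (.v 5)))),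
  (2, .sub (.add (.mul (.mul (.pow (.v 0) 2) (.v 3)) (.v 5)) (.mul (.mul (.pow (.v 0) 4) (.v 3)) (.v 5))) (.mul (.c 2) (.mul (.mul (.pow (.v 0) 3) (.v 3)) (.v 5)))),
  (2, .sub (.add (.mul (.mul (.pow (.v 0) 2) (.v 2)) (.v 6)) (.mul (.mul (.pow (.v 0) 4) (.v 2)) (.v 6))) (.mul (.c 2) (.mul (.mul (.pow (.v 0) 3) (.v 2)) (.v 6)))),
  (2, .sub (.add (.mul (.mul (.pow (.v 0) 2) (.v 1)) (.v 7)) (.mul (.mul (.pow (.v 0) 4) (.v 1)) (.v 7))) (.mul (.c 2) (.mul (.mul (.pow (.v 0) 3) (.v 1)) (.v 7)))),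
  (3, .sub (.add (.mul (.pow (.v 0) 2) (.v 1)) (.mul (.pow (.v 0) 4) (.v 1))) (.mul (.c 2) (.mul (.pow (.v 0) 3) (.v 1)))),
  (1, .sub (.mul (.pow (.v 0) 3) (.v 1)) (.mul (.pow (.v 0) 4) (.v 1))),
  (1, .sub (.mul (.mul (.pow (.v 0) 3) (.v 1)) (.v 3)) (.mul (.mul (.pow (.v 0) 4) (.v 1)) (.v 3))),
  (1, .sub (.mul (.pow (.v 0) 3) (.pow (.v 1) 3)) (.mul (.pow (.v 0) 4) (.pow (.v 1) 3))),
  (1, .sub (.mul (.mul (.pow (.v 0) 3) (.v 1)) (.pow (.v 2) 2)) (.mul (.mul (.pow (.v 0) 4) (.v 1)) (.pow (.v 2) 2))),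
  (1, .sub (.mul (.pow (.v 0) 3) (.v 4)) (.mul (.pow (.v 0) 4) (.v 4))),
  (1, .sub (.mul (.mul (.pow (.v 0) 3) (.v 3)) (.v 4)) (.mul (.mul (.pow (.v 0) 4) (.v 3)) (.v 4))),
  (1, .sub (.mul (.mul (.pow (.v 0) 3) (.v 1)) (.v 6)) (.mul (.mul (.pow (.v 0) 4) (.v 1)) (.v 6))),
  (1, .sub (.mul (.mul (.pow (.v 0) 3) (.v 2)) (.v 7)) (.mul (.mul (.pow (.v 0) 4) (.v 2)) (.v 7))),
  (2, .sub (.mul (.pow (.v 0) 3) (.v 2)) (.mul (.pow (.v 0) 4) (.v 2))),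
  (2, .sub (.mul (.mul (.pow (.v 0) 3) (.v 2)) (.v 3)) (.mul (.mul (.pow (.v 0) 4) (.v 2)) (.v 3))),
  (2, .sub (.mul (.mul (.pow (.v 0) 3) (.pow (.v 1) 2)) (.v 2)) (.mul (.mul (.pow (.v 0) 4) (.pow (.v 1) 2)) (.v 2))),
  (2, .sub (.mul (.pow (.v 0) 3) (.pow (.v 2) 3)) (.mul (.pow (.v 0) 4) (.pow (.v 2) 3))),
  (2, .sub (.mul (.pow (.v 0) 3) (.v 5)) (.mul (.pow (.v 0) 4) (.v 5))),
  (2, .sub (.mul (.mul (.pow (.v 0) 3) (.v 3)) (.v 5)) (.mul (.mul (.pow (.v 0) 4) (.v 3)) (.v 5))),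
  (2, .sub (.mul (.mul (.pow (.v 0) 3) (.v 2)) (.v 6)) (.mul (.mul (.pow (.v 0) 4) (.v 2)) (.v 6))),
  (2, .sub (.mul (.mul (.pow (.v 0) 3) (.v 1)) (.v 7)) (.mul (.mul (.pow (.v 0) 4) (.v 1)) (.v 7))),
  (3, .sub (.mul (.pow (.v 0) 3) (.v 1)) (.mul (.pow (.v 0) 4) (.v 1))),
  (1, .mul (.pow (.v 0) 4) (.v 1)),
  (1, .mul (.mul (.pow (.v 0) 4) (.v 1)) (.v 3)),
  (1, .mul (.pow (.v 0) 4) (.pow (.v 1) 3)),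
  (1, .mul (.mul (.pow (.v 0) 4) (.v 1)) (.pow (.v 2) 2)),
  (1, .mul (.pow (.v 0) 4) (.v 4)),
  (1, .mul (.mul (.pow (.v 0) 4) (.v 3)) (.v 4)),
  (1, .add (.mul (.mul (.pow (.v 0) 4) (.v 1)) (.v 6)) (.mul (.mul (.pow (.v 0) 4) (.v 2)) (.v 7))),
  (2, .mul (.pow (.v 0) 4) (.v 2)),
  (2, .mul (.mul (.pow (.v 0) 4) (.v 2)) (.v 3)),
  (2, .mul (.mul (.pow (.v 0) 4) (.pow (.v 1) 2)) (.v 2)),
  (2, .mul (.pow (.v 0) 4) (.pow (.v 2) 3)),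
  (2, .mul (.pow (.v 0) 4) (.v 5)),
  (2, .mul (.mul (.pow (.v 0) 4) (.v 3)) (.v 5)),
  (2, .add (.mul (.mul (.pow (.v 0) 4) (.v 2)) (.v 6)) (.mul (.mul (.pow (.v 0) 4) (.v 1)) (.v 7)))]

/-- elements of block 3 (1*11) -/
def els3 : List (Nat × PE) := [
  (1, .sub (.sub (.add (.add (.v 2) (.mul (.c 6) (.mul (.pow (.v 0) 2) (.v 2)))) (.mul (.pow (.v 0) 4) (.v 2))) (.mul (.c 4) (.mul (.v 0) (.v 2)))) (.mul (.c 4) (.mul (.pow (.v 0) 3) (.v 2)))),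
  (1, .sub (.sub (.add (.add (.mul (.v 2) (.v 3)) (.mul (.c 6) (.mul (.mul (.pow (.v 0) 2) (.v 2)) (.v 3)))) (.mul (.mul (.pow (.v 0) 4) (.v 2)) (.v 3))) (.mul (.c 4) (.mul (.mul (.v 0) (.v 2)) (.v 3)))) (.mul (.c 4) (.mul (.mul (.pow (.v 0) 3) (.v 2)) (.v 3)))),
  (1, .sub (.sub (.add (.add (.mul (.pow (.v 1) 2) (.v 2)) (.mul (.c 6) (.mul (.mul (.pow (.v 0) 2) (.pow (.v 1) 2)) (.v 2)))) (.mul (.mul (.pow (.v 0) 4) (.pow (.v 1) 2)) (.v 2))) (.mul (.c 4) (.mul (.mul (.v 0) (.pow (.v 1) 2)) (.v 2)))) (.mul (.c 4) (.mul (.mul (.pow (.v 0) 3) (.pow (.v 1) 2)) (.v 2)))),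
  (1, .sub (.sub (.add (.add (.mul (.v 2) (.v 6)) (.mul (.c 6) (.mul (.mul (.pow (.v 0) 2) (.v 2)) (.v 6)))) (.mul (.mul (.pow (.v 0) 4) (.v 2)) (.v 6))) (.mul (.c 4) (.mul (.mul (.v 0) (.v 2)) (.v 6)))) (.mul (.c 4) (.mul (.mul (.pow (.v 0) 3) (.v 2)) (.v 6)))),
  (1, .sub (.sub (.add (.add (.mul (.v 1) (.v 7)) (.mul (.c 6) (.mul (.mul (.pow (.v 0) 2) (.v 1)) (.v 7)))) (.mul (.mul (.pow (.v 0) 4) (.v 1)) (.v 7))) (.mul (.c 4) (.mul (.mul (.v 0) (.v 1)) (.v 7)))) (.mul (.c 4) (.mul (.mul (.pow (.v 0) 3) (.v 1)) (.v 7)))),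
  (2, .sub (.sub (.add (.add (.v 1) (.mul (.c 6) (.mul (.pow (.v 0) 2) (.v 1)))) (.mul (.pow (.v 0) 4) (.v 1))) (.mul (.c 4) (.mul (.v 0) (.v 1)))) (.mul (.c 4) (.mul (.pow (.v 0) 3) (.v 1)))),
  (2, .sub (.sub (.add (.add (.mul (.v 1) (.v 3)) (.mul (.c 6) (.mul (.mul (.pow (.v 0) 2) (.v 1)) (.v 3)))) (.mul (.mul (.pow (.v 0) 4) (.v 1)) (.v 3))) (.mul (.c 4) (.mul (.mul (.v 0) (.v 1)) (.v 3)))) (.mul (.c 4) (.mul (.mul (.pow (.v 0) 3) (.v 1)) (.v 3)))),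
  (2, .sub (.sub (.add (.add (.mul (.v 1) (.pow (.v 2) 2)) (.mul (.c 6) (.mul (.mul (.pow (.v 0) 2) (.v 1)) (.pow (.v 2) 2)))) (.mul (.mul (.pow (.v 0) 4) (.v 1)) (.pow (.v 2) 2))) (.mul (.c 4) (.mul (.mul (.v 0) (.v 1)) (.pow (.v 2) 2)))) (.mul (.c 4) (.mul (.mul (.pow (.v 0) 3) (.v 1)) (.pow (.v 2) 2)))),
  (2, .sub (.sub (.add (.add (.mul (.v 1) (.v 6)) (.mul (.c 6) (.mul (.mul (.pow (.v 0) 2) (.v 1)) (.v 6)))) (.mul (.mul (.pow (.v 0) 4) (.v 1)) (.v 6))) (.mul (.c 4) (.mul (.mul (.v 0) (.v 1)) (.v 6)))) (.mul (.c 4) (.mul (.mul (.pow (.v 0) 3) (.v 1)) (.v 6)))),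
  (2, .sub (.sub (.add (.add (.mul (.v 2) (.v 7)) (.mul (.c 6) (.mul (.mul (.pow (.v 0) 2) (.v 2)) (.v 7)))) (.mul (.mul (.pow (.v 0) 4) (.v 2)) (.v 7))) (.mul (.c 4) (.mul (.mul (.v 0) (.v 2)) (.v 7)))) (.mul (.c 4) (.mul (.mul (.pow (.v 0) 3) (.v 2)) (.v 7)))),
  (3, .sub (.sub (.add (.add (.v 2) (.mul (.c 6) (.mul (.pow (.v 0) 2) (.v 2)))) (.mul (.pow (.v 0) 4) (.v 2))) (.mul (.c 4) (.mul (.v 0) (.v 2)))) (.mul (.c 4) (.mul (.pow (.v 0) 3) (.v 2)))),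
  (1, .sub (.sub (.add (.mul (.v 0) (.v 2)) (.mul (.c 3) (.mul (.pow (.v 0) 3) (.v 2)))) (.mul (.c 3) (.mul (.pow (.v 0) 2) (.v 2)))) (.mul (.pow (.v 0) 4) (.v 2))),
  (1, .sub (.sub (.add (.mul (.mul (.v 0) (.v 2)) (.v 3)) (.mul (.c 3) (.mul (.mul (.pow (.v 0) 3) (.v 2)) (.v 3)))) (.mul (.c 3) (.mul (.mul (.pow (.v 0) 2) (.v 2)) (.v 3)))) (.mul (.mul (.pow (.v 0) 4) (.v 2)) (.v 3))),
  (1, .sub (.sub (.add (.mul (.mul (.v 0) (.pow (.v 1) 2)) (.v 2)) (.mul (.c 3) (.mul (.mul (.pow (.v 0) 3) (.pow (.v 1) 2)) (.v 2)))) (.mul (.c 3) (.mul (.mul (.pow (.v 0) 2) (.pow (.v 1) 2)) (.v 2)))) (.mul (.mul (.pow (.v 0) 4) (.pow (.v 1) 2)) (.v 2))),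
  (1, .sub (.sub (.add (.mul (.v 0) (.pow (.v 2) 3)) (.mul (.c 3) (.mul (.pow (.v 0) 3) (.pow (.v 2) 3)))) (.mul (.c 3) (.mul (.pow (.v 0) 2) (.pow (.v 2) 3)))) (.mul (.pow (.v 0) 4) (.pow (.v 2) 3))),
  (1, .sub (.sub (.add (.mul (.v 0) (.v 5)) (.mul (.c 3) (.mul (.pow (.v 0) 3) (.v 5)))) (.mul (.c 3) (.mul (.pow (.v 0) 2) (.v 5)))) (.mul (.pow (.v 0) 4) (.v 5))),
  (1, .sub (.sub (.add (.mul (.mul (.v 0) (.v 3)) (.v 5)) (.mul (.c 3) (.mul (.mul (.pow (.v 0) 3) (.v 3)) (.v 5)))) (.mul (.c 3) (.mul (.mul (.pow (.v 0) 2) (.v 3)) (.v 5)))) (.mul (.mul (.pow (.v 0) 4) (.v 3)) (.v 5))),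
  (1, .sub (.sub (.add (.mul (.mul (.v 0) (.v 2)) (.v 6)) (.mul (.c 3) (.mul (.mul (.pow (.v 0) 3) (.v 2)) (.v 6)))) (.mul (.c 3) (.mul (.mul (.pow (.v 0) 2) (.v 2)) (.v 6)))) (.mul (.mul (.pow (.v 0) 4) (.v 2)) (.v 6))),
  (1, .sub (.sub (.add (.mul (.mul (.v 0) (.v 1)) (.v 7)) (.mul (.c 3) (.mul (.mul (.pow (.v 0) 3) (.v 1)) (.v 7)))) (.mul (.c 3) (.mul (.mul (.pow (.v 0) 2) (.v 1)) (.v 7)))) (.mul (.mul (.pow (.v 0) 4) (.v 1)) (.v 7))),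
  (2, .sub (.sub (.add (.mul (.v 0) (.v 1)) (.mul (.c 3) (.mul (.pow (.v 0) 3) (.v 1)))) (.mul (.c 3) (.mul (.pow (.v 0) 2) (.v 1)))) (.mul (.pow (.v 0) 4) (.v 1))),
  (2, .sub (.sub (.add (.mul (.mul (.v 0) (.v 1)) (.v 3)) (.mul (.c 3) (.mul (.mul (.pow (.v 0) 3) (.v 1)) (.v 3)))) (.mul (.c 3) (.mul (.mul (.pow (.v 0) 2) (.v 1)) (.v 3)))) (.mul (.mul (.pow (.v 0) 4) (.v 1)) (.v 3))),
  (2, .sub (.sub (.add (.mul (.v 0) (.pow (.v 1) 3)) (.mul (.c 3) (.mul (.pow (.v 0) 3) (.pow (.v 1) 3)))) (.mul (.c 3) (.mul (.pow (.v 0) 2) (.pow (.v 1) 3)))) (.mul (.pow (.v 0) 4) (.pow (.v 1) 3))),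
  (2, .sub (.sub (.add (.mul (.mul (.v 0) (.v 1)) (.pow (.v 2) 2)) (.mul (.c 3) (.mul (.mul (.pow (.v 0) 3) (.v 1)) (.pow (.v 2) 2)))) (.mul (.c 3) (.mul (.mul (.pow (.v 0) 2) (.v 1)) (.pow (.v 2) 2)))) (.mul (.mul (.pow (.v 0) 4) (.v 1)) (.pow (.v 2) 2))),
  (2, .sub (.sub (.add (.mul (.v 0) (.v 4)) (.mul (.c 3) (.mul (.pow (.v 0) 3) (.v 4)))) (.mul (.c 3) (.mul (.pow (.v 0) 2) (.v 4)))) (.mul (.pow (.v 0) 4) (.v 4))),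
  (2, .sub (.sub (.add (.mul (.mul (.v 0) (.v 3)) (.v 4)) (.mul (.c 3) (.mul (.mul (.pow (.v 0) 3) (.v 3)) (.v 4)))) (.mul (.c 3) (.mul (.mul (.pow (.v 0) 2) (.v 3)) (.v 4)))) (.mul (.mul (.pow (.v 0) 4) (.v 3)) (.v 4))),
  (2, .sub (.sub (.add (.mul (.mul (.v 0) (.v 1)) (.v 6)) (.mul (.c 3) (.mul (.mul (.pow (.v 0) 3) (.v 1)) (.v 6)))) (.mul (.c 3) (.mul (.mul (.pow (.v 0) 2) (.v 1)) (.v 6)))) (.mul (.mul (.pow (.v 0) 4) (.v 1)) (.v 6))),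
  (2, .sub (.sub (.add (.mul (.mul (.v 0) (.v 2)) (.v 7)) (.mul (.c 3) (.mul (.mul (.pow (.v 0) 3) (.v 2)) (.v 7)))) (.mul (.c 3) (.mul (.mul (.pow (.v 0) 2) (.v 2)) (.v 7)))) (.mul (.mul (.pow (.v 0) 4) (.v 2)) (.v 7))),
  (3, .sub (.sub (.add (.mul (.v 0) (.v 2)) (.mul (.c 3) (.mul (.pow (.v 0) 3) (.v 2)))) (.mul (.c 3) (.mul (.pow (.v 0) 2) (.v 2)))) (.mul (.pow (.v 0) 4) (.v 2))),
  (1, .sub (.add (.mul (.pow (.v 0) 2) (.v 2)) (.mul (.pow (.v 0) 4) (.v 2))) (.mul (.c 2) (.mul (.pow (.v 0) 3) (.v 2)))),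
  (1, .sub (.add (.mul (.mul (.pow (.v 0) 2) (.v 2)) (.v 3)) (.mul (.mul (.pow (.v 0) 4) (.v 2)) (.v 3))) (.mul (.c 2) (.mul (.mul (.pow (.v 0) 3) (.v 2)) (.v 3)))),
  (1, .sub (.add (.mul (.mul (.pow (.v 0) 2) (.pow (.v 1) 2)) (.v 2)) (.mul (.mul (.pow (.v 0) 4) (.pow (.v 1) 2)) (.v 2))) (.mul (.c 2) (.mul (.mul (.pow (.v 0) 3) (.pow (.v 1) 2)) (.v 2)))),
  (1, .sub (.add (.mul (.pow (.v 0) 2) (.pow (.v 2) 3)) (.mul (.pow (.v 0) 4) (.pow (.v 2) 3))) (.mul (.c 2) (.mul (.pow (.v 0) 3) (.pow (.v 2) 3)))),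
  (1, .sub (.add (.mul (.pow (.v 0) 2) (.v 5)) (.mul (.pow (.v 0) 4) (.v 5))) (.mul (.c 2) (.mul (.pow (.v 0) 3) (.v 5)))),
  (1, .sub (.add (.mul (.mul (.pow (.v 0) 2) (.v 3)) (.v 5)) (.mul (.mul (.pow (.v 0) 4) (.v 3)) (.v 5))) (.mul (.c 2) (.mul (.mul (.pow (.v 0) 3) (.v 3)) (.v 5)))),
  (1, .sub (.add (.mul (.mul (.pow (.v 0) 2) (.v 2)) (.v 6)) (.mul (.mul (.pow (.v 0) 4) (.v 2)) (.v 6))) (.mul (.c 2) (.mul (.mul (.pow (.v 0) 3) (.v 2)) (.v 6)))),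
  (1, .sub (.add (.mul (.mul (.pow (.v 0) 2) (.v 1)) (.v 7)) (.mul (.mul (.pow (.v 0) 4) (.v 1)) (.v 7))) (.mul (.c 2) (.mul (.mul (.pow (.v 0) 3) (.v 1)) (.v 7)))),
  (2, .sub (.add (.mul (.pow (.v 0) 2) (.v 1)) (.mul (.pow (.v 0) 4) (.v 1))) (.mul (.c 2) (.mul (.pow (.v 0) 3) (.v 1)))),
  (2, .sub (.add (.mul (.mul (.pow (.v 0) 2) (.v 1)) (.v 3)) (.mul (.mul (.pow (.v 0) 4) (.v 1)) (.v 3))) (.mul (.c 2) (.mul (.mul (.pow (.v 0) 3) (.v 1)) (.v 3)))),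
  (2, .sub (.add (.mul (.pow (.v 0) 2) (.pow (.v 1) 3)) (.mul (.pow (.v 0) 4) (.pow (.v 1) 3))) (.mul (.c 2) (.mul (.pow (.v 0) 3) (.pow (.v 1) 3)))),
  (2, .sub (.add (.mul (.mul (.pow (.v 0) 2) (.v 1)) (.pow (.v 2) 2)) (.mul (.mul (.pow (.v 0) 4) (.v 1)) (.pow (.v 2) 2))) (.mul (.c 2) (.mul (.mul (.pow (.v 0) 3) (.v 1)) (.pow (.v 2) 2)))),
  (2, .sub (.add (.mul (.pow (.v 0) 2) (.v 4)) (.mul (.pow (.v 0) 4) (.v 4))) (.mul (.c 2) (.mul (.pow (.v 0) 3) (.v 4)))),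
  (2, .sub (.add (.mul (.mul (.pow (.v 0) 2) (.v 3)) (.v 4)) (.mul (.mul (.pow (.v 0) 4) (.v 3)) (.v 4))) (.mul (.c 2) (.mul (.mul (.pow (.v 0) 3) (.v 3)) (.v 4)))),
  (2, .sub (.add (.mul (.mul (.pow (.v 0) 2) (.v 1)) (.v 6)) (.mul (.mul (.pow (.v 0) 4) (.v 1)) (.v 6))) (.mul (.c 2) (.mul (.mul (.pow (.v 0) 3) (.v 1)) (.v 6)))),
  (2, .sub (.add (.mul (.mul (.pow (.v 0) 2) (.v 2)) (.v 7)) (.mul (.mul (.pow (.v 0) 4) (.v 2)) (.v 7))) (.mul (.c 2) (.mul (.mul (.pow (.v 0) 3) (.v 2)) (.v 7)))),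
  (3, .sub (.add (.mul (.pow (.v 0) 2) (.v 2)) (.mul (.pow (.v 0) 4) (.v 2))) (.mul (.c 2) (.mul (.pow (.v 0) 3) (.v 2)))),
  (1, .sub (.mul (.pow (.v 0) 3) (.v 2)) (.mul (.pow (.v 0) 4) (.v 2))),
  (1, .sub (.mul (.mul (.pow (.v 0) 3) (.v 2)) (.v 3)) (.mul (.mul (.pow (.v 0) 4) (.v 2)) (.v 3))),
  (1, .sub (.mul (.mul (.pow (.v 0) 3) (.pow (.v 1) 2)) (.v 2)) (.mul (.mul (.pow (.v 0) 4) (.pow (.v 1) 2)) (.v 2))),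
  (1, .sub (.mul (.pow (.v 0) 3) (.pow (.v 2) 3)) (.mul (.pow (.v 0) 4) (.pow (.v 2) 3))),
  (1, .sub (.mul (.pow (.v 0) 3) (.v 5)) (.mul (.pow (.v 0) 4) (.v 5))),
  (1, .sub (.mul (.mul (.pow (.v 0) 3) (.v 3)) (.v 5)) (.mul (.mul (.pow (.v 0) 4) (.v 3)) (.v 5))),
  (1, .sub (.mul (.mul (.pow (.v 0) 3) (.v 2)) (.v 6)) (.mul (.mul (.pow (.v 0) 4) (.v 2)) (.v 6))),
  (1, .sub (.mul (.mul (.pow (.v 0) 3) (.v 1)) (.v 7)) (.mul (.mul (.pow (.v 0) 4) (.v 1)) (.v 7))),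
  (2, .sub (.mul (.pow (.v 0) 3) (.v 1)) (.mul (.pow (.v 0) 4) (.v 1))),
  (2, .sub (.mul (.mul (.pow (.v 0) 3) (.v 1)) (.v 3)) (.mul (.mul (.pow (.v 0) 4) (.v 1)) (.v 3))),
  (2, .sub (.mul (.pow (.v 0) 3) (.pow (.v 1) 3)) (.mul (.pow (.v 0) 4) (.pow (.v 1) 3))),
  (2, .sub (.mul (.mul (.pow (.v 0) 3) (.v 1)) (.pow (.v 2) 2)) (.mul (.mul (.pow (.v 0) 4) (.v 1)) (.pow (.v 2) 2))),
  (2, .sub (.mul (.pow (.v 0) 3) (.v 4)) (.mul (.pow (.v 0) 4) (.v 4))),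
  (2, .sub (.mul (.mul (.pow (.v 0) 3) (.v 3)) (.v 4)) (.mul (.mul (.pow (.v 0) 4) (.v 3)) (.v 4))),
  (2, .sub (.mul (.mul (.pow (.v 0) 3) (.v 1)) (.v 6)) (.mul (.mul (.pow (.v 0) 4) (.v 1)) (.v 6))),
  (2, .sub (.mul (.mul (.pow (.v 0) 3) (.v 2)) (.v 7)) (.mul (.mul (.pow (.v 0) 4) (.v 2)) (.v 7))),
  (3, .sub (.mul (.pow (.v 0) 3) (.v 2)) (.mul (.pow (.v 0) 4) (.v 2))),
  (1, .mul (.pow (.v 0) 4) (.v 2)),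
  (1, .mul (.mul (.pow (.v 0) 4) (.v 2)) (.v 3)),
  (1, .mul (.mul (.pow (.v 0) 4) (.pow (.v 1) 2)) (.v 2)),
  (1, .mul (.pow (.v 0) 4) (.pow (.v 2) 3)),
  (1, .mul (.pow (.v 0) 4) (.v 5)),
  (1, .mul (.mul (.pow (.v 0) 4) (.v 3)) (.v 5)),
  (1, .add (.mul (.mul (.pow (.v 0) 4) (.v 2)) (.v 6)) (.mul (.mul (.pow (.v 0) 4) (.v 1)) (.v 7))),
  (2, .mul (.pow (.v 0) 4) (.v 1)),
  (2, .mul (.mul (.pow (.v 0) 4) (.v 1)) (.v 3)),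
  (2, .mul (.pow (.v 0) 4) (.pow (.v 1) 3)),
  (2, .mul (.mul (.pow (.v 0) 4) (.v 1)) (.pow (.v 2) 2)),
  (2, .mul (.pow (.v 0) 4) (.v 4)),
  (2, .mul (.mul (.pow (.v 0) 4) (.v 3)) (.v 4)),
  (2, .add (.mul (.mul (.pow (.v 0) 4) (.v 1)) (.v 6)) (.mul (.mul (.pow (.v 0) 4) (.v 2)) (.v 7)))]

/-- elements of block 4 (x(1-x)*00) -/
def els4 : List (Nat × PE) := [
  (1, .sub (.sub (.add (.c 1) (.mul (.c 3) (.pow (.v 0) 2))) (.mul (.c 3) (.v 0))) (.pow (.v 0) 3)),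
  (1, .sub (.sub (.add (.v 3) (.mul (.c 3) (.mul (.pow (.v 0) 2) (.v 3)))) (.mul (.c 3) (.mul (.v 0) (.v 3)))) (.mul (.pow (.v 0) 3) (.v 3))),
  (1, .sub (.sub (.add (.pow (.v 1) 2) (.mul (.c 3) (.mul (.pow (.v 0) 2) (.pow (.v 1) 2)))) (.mul (.c 3) (.mul (.v 0) (.pow (.v 1) 2)))) (.mul (.pow (.v 0) 3) (.pow (.v 1) 2))),
  (1, .sub (.sub (.add (.pow (.v 2) 2) (.mul (.c 3) (.mul (.pow (.v 0) 2) (.pow (.v 2) 2)))) (.mul (.c 3) (.mul (.v 0) (.pow (.v 2) 2)))) (.mul (.pow (.v 0) 3) (.pow (.v 2) 2))),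
  (1, .sub (.sub (.add (.mul (.pow (.v 1) 2) (.v 3)) (.mul (.c 3) (.mul (.mul (.pow (.v 0) 2) (.pow (.v 1) 2)) (.v 3)))) (.mul (.c 3) (.mul (.mul (.v 0) (.pow (.v 1) 2)) (.v 3)))) (.mul (.mul (.pow (.v 0) 3) (.pow (.v 1) 2)) (.v 3))),
  (1, .sub (.sub (.add (.mul (.pow (.v 2) 2) (.v 3)) (.mul (.c 3) (.mul (.mul (.pow (.v 0) 2) (.pow (.v 2) 2)) (.v 3)))) (.mul (.c 3) (.mul (.mul (.v 0) (.pow (.v 2) 2)) (.v 3)))) (.mul (.mul (.pow (.v 0) 3) (.pow (.v 2) 2)) (.v 3))),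
  (1, .sub (.sub (.add (.mul (.v 1) (.v 4)) (.mul (.c 3) (.mul (.mul (.pow (.v 0) 2) (.v 1)) (.v 4)))) (.mul (.c 3) (.mul (.mul (.v 0) (.v 1)) (.v 4)))) (.mul (.mul (.pow (.v 0) 3) (.v 1)) (.v 4))),
  (1, .sub (.sub (.add (.mul (.v 2) (.v 5)) (.mul (.c 3) (.mul (.mul (.pow (.v 0) 2) (.v 2)) (.v 5)))) (.mul (.c 3) (.mul (.mul (.v 0) (.v 2)) (.v 5)))) (.mul (.mul (.pow (.v 0) 3) (.v 2)) (.v 5))),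
  (1, .sub (.sub (.add (.v 6) (.mul (.c 3) (.mul (.pow (.v 0) 2) (.v 6)))) (.mul (.c 3) (.mul (.v 0) (.v 6)))) (.mul (.pow (.v 0) 3) (.v 6))),
  (1, .sub (.sub (.add (.mul (.v 3) (.v 6)) (.mul (.c 3) (.mul (.mul (.pow (.v 0) 2) (.v 3)) (.v 6)))) (.mul (.c 3) (.mul (.mul (.v 0) (.v 3)) (.v 6)))) (.mul (.mul (.pow (.v 0) 3) (.v 3)) (.v 6))),
  (2, .sub (.sub (.add (.mul (.v 1) (.v 2)) (.mul (.c 3) (.mul (.mul (.pow (.v 0) 2) (.v 1)) (.v 2)))) (.mul (.c 3) (.mul (.mul (.v 0) (.v 1)) (.v 2)))) (.mul (.mul (.pow (.v 0) 3) (.v 1)) (.v 2))),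
  (2, .sub (.sub (.add (.mul (.v 2) (.v 4)) (.mul (.c 3) (.mul (.mul (.pow (.v 0) 2) (.v 2)) (.v 4)))) (.mul (.c 3) (.mul (.mul (.v 0) (.v 2)) (.v 4)))) (.mul (.mul (.pow (.v 0) 3) (.v 2)) (.v 4))),
  (2, .sub (.sub (.add (.mul (.v 1) (.v 5)) (.mul (.c 3) (.mul (.mul (.pow (.v 0) 2) (.v 1)) (.v 5)))) (.mul (.c 3) (.mul (.mul (.v 0) (.v 1)) (.v 5)))) (.mul (.mul (.pow (.v 0) 3) (.v 1)) (.v 5))),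
  (2, .sub (.sub (.add (.v 7) (.mul (.c 3) (.mul (.pow (.v 0) 2) (.v 7)))) (.mul (.c 3) (.mul (.v 0) (.v 7)))) (.mul (.pow (.v 0) 3) (.v 7))),
  (2, .sub (.sub (.add (.mul (.v 3) (.v 7)) (.mul (.c 3) (.mul (.mul (.pow (.v 0) 2) (.v 3)) (.v 7)))) (.mul (.c 3) (.mul (.mul (.v 0) (.v 3)) (.v 7)))) (.mul (.mul (.pow (.v 0) 3) (.v 3)) (.v 7))),
  (1, .sub (.add (.v 0) (.pow (.v 0) 3)) (.mul (.c 2) (.pow (.v 0) 2))),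
  (1, .sub (.add (.mul (.v 0) (.v 3)) (.mul (.pow (.v 0) 3) (.v 3))) (.mul (.c 2) (.mul (.pow (.v 0) 2) (.v 3)))),
  (1, .sub (.add (.mul (.v 0) (.pow (.v 1) 2)) (.mul (.pow (.v 0) 3) (.pow (.v 1) 2))) (.mul (.c 2) (.mul (.pow (.v 0) 2) (.pow (.v 1) 2)))),
  (1, .sub (.add (.mul (.v 0) (.pow (.v 2) 2)) (.mul (.pow (.v 0) 3) (.pow (.v 2) 2))) (.mul (.c 2) (.mul (.pow (.v 0) 2) (.pow (.v 2) 2)))),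
  (1, .sub (.add (.mul (.mul (.v 0) (.pow (.v 1) 2)) (.v 3)) (.mul (.mul (.pow (.v 0) 3) (.pow (.v 1) 2)) (.v 3))) (.mul (.c 2) (.mul (.mul (.pow (.v 0) 2) (.pow (.v 1) 2)) (.v 3)))),
  (1, .sub (.add (.mul (.mul (.v 0) (.pow (.v 2) 2)) (.v 3)) (.mul (.mul (.pow (.v 0) 3) (.pow (.v 2) 2)) (.v 3))) (.mul (.c 2) (.mul (.mul (.pow (.v 0) 2) (.pow (.v 2) 2)) (.v 3)))),
  (1, .sub (.add (.mul (.mul (.v 0) (.v 1)) (.v 4)) (.mul (.mul (.pow (.v 0) 3) (.v 1)) (.v 4))) (.mul (.c 2) (.mul (.mul (.pow (.v 0) 2) (.v 1)) (.v 4)))),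
  (1, .sub (.add (.mul (.mul (.v 0) (.v 2)) (.v 5)) (.mul (.mul (.pow (.v 0) 3) (.v 2)) (.v 5))) (.mul (.c 2) (.mul (.mul (.pow (.v 0) 2) (.v 2)) (.v 5)))),
  (1, .sub (.add (.mul (.v 0) (.v 6)) (.mul (.pow (.v 0) 3) (.v 6))) (.mul (.c 2) (.mul (.pow (.v 0) 2) (.v 6)))),
  (1, .sub (.add (.mul (.mul (.v 0) (.v 3)) (.v 6)) (.mul (.mul (.pow (.v 0) 3) (.v 3)) (.v 6))) (.mul (.c 2) (.mul (.mul (.pow (.v 0) 2) (.v 3)) (.v 6)))),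
  (2, .sub (.add (.mul (.mul (.v 0) (.v 1)) (.v 2)) (.mul (.mul (.pow (.v 0) 3) (.v 1)) (.v 2))) (.mul (.c 2) (.mul (.mul (.pow (.v 0) 2) (.v 1)) (.v 2)))),
  (2, .sub (.add (.mul (.mul (.v 0) (.v 2)) (.v 4)) (.mul (.mul (.pow (.v 0) 3) (.v 2)) (.v 4))) (.mul (.c 2) (.mul (.mul (.pow (.v 0) 2) (.v 2)) (.v 4)))),
  (2, .sub (.add (.mul (.mul (.v 0) (.v 1)) (.v 5)) (.mul (.mul (.pow (.v 0) 3) (.v 1)) (.v 5))) (.mul (.c 2) (.mul (.mul (.pow (.v 0) 2) (.v 1)) (.v 5)))),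
  (2, .sub (.add (.mul (.v 0) (.v 7)) (.mul (.pow (.v 0) 3) (.v 7))) (.mul (.c 2) (.mul (.pow (.v 0) 2) (.v 7)))),
  (2, .sub (.add (.mul (.mul (.v 0) (.v 3)) (.v 7)) (.mul (.mul (.pow (.v 0) 3) (.v 3)) (.v 7))) (.mul (.c 2) (.mul (.mul (.pow (.v 0) 2) (.v 3)) (.v 7)))),
  (1, .sub (.pow (.v 0) 2) (.pow (.v 0) 3)),
  (1, .sub (.mul (.pow (.v 0) 2) (.v 3)) (.mul (.pow (.v 0) 3) (.v 3))),
  (1, .sub (.mul (.pow (.v 0) 2) (.pow (.v 1) 2)) (.mul (.pow (.v 0) 3) (.pow (.v 1) 2))),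
  (1, .sub (.mul (.pow (.v 0) 2) (.pow (.v 2) 2)) (.mul (.pow (.v 0) 3) (.pow (.v 2) 2))),
  (1, .sub (.mul (.mul (.pow (.v 0) 2) (.pow (.v 1) 2)) (.v 3)) (.mul (.mul (.pow (.v 0) 3) (.pow (.v 1) 2)) (.v 3))),
  (1, .sub (.mul (.mul (.pow (.v 0) 2) (.pow (.v 2) 2)) (.v 3)) (.mul (.mul (.pow (.v 0) 3) (.pow (.v 2) 2)) (.v 3))),
  (1, .sub (.mul (.mul (.pow (.v 0) 2) (.v 1)) (.v 4)) (.mul (.mul (.pow (.v 0) 3) (.v 1)) (.v 4))),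
  (1, .sub (.mul (.mul (.pow (.v 0) 2) (.v 2)) (.v 5)) (.mul (.mul (.pow (.v 0) 3) (.v 2)) (.v 5))),
  (1, .sub (.mul (.pow (.v 0) 2) (.v 6)) (.mul (.pow (.v 0) 3) (.v 6))),
  (1, .sub (.mul (.mul (.pow (.v 0) 2) (.v 3)) (.v 6)) (.mul (.mul (.pow (.v 0) 3) (.v 3)) (.v 6))),
  (2, .sub (.mul (.mul (.pow (.v 0) 2) (.v 1)) (.v 2)) (.mul (.mul (.pow (.v 0) 3) (.v 1)) (.v 2))),
  (2, .sub (.mul (.mul (.pow (.v 0) 2) (.v 2)) (.v 4)) (.mul (.mul (.pow (.v 0) 3) (.v 2)) (.v 4))),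
  (2, .sub (.mul (.mul (.pow (.v 0) 2) (.v 1)) (.v 5)) (.mul (.mul (.pow (.v 0) 3) (.v 1)) (.v 5))),
  (2, .sub (.mul (.pow (.v 0) 2) (.v 7)) (.mul (.pow (.v 0) 3) (.v 7))),
  (2, .sub (.mul (.mul (.pow (.v 0) 2) (.v 3)) (.v 7)) (.mul (.mul (.pow (.v 0) 3) (.v 3)) (.v 7))),
  (1, .pow (.v 0) 3),
  (1, .mul (.pow (.v 0) 3) (.v 3)),
  (1, .mul (.pow (.v 0) 3) (.pow (.v 1) 2)),
  (1, .mul (.pow (.v 0) 3) (.pow (.v 2) 2)),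
  (1, .mul (.mul (.pow (.v 0) 3) (.pow (.v 1) 2)) (.v 3)),
  (1, .mul (.mul (.pow (.v 0) 3) (.pow (.v 2) 2)) (.v 3)),
  (1, .mul (.mul (.pow (.v 0) 3) (.v 1)) (.v 4)),
  (1, .mul (.mul (.pow (.v 0) 3) (.v 2)) (.v 5)),
  (1, .mul (.pow (.v 0) 3) (.v 6)),
  (1, .mul (.mul (.pow (.v 0) 3) (.v 3)) (.v 6)),
  (2, .mul (.mul (.pow (.v 0) 3) (.v 1)) (.v 2)),
  (2, .mul (.mul (.pow (.v 0) 3) (.v 2)) (.v 4)),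
  (2, .mul (.mul (.pow (.v 0) 3) (.v 1)) (.v 5)),
  (2, .mul (.pow (.v 0) 3) (.v 7)),
  (2, .mul (.mul (.pow (.v 0) 3) (.v 3)) (.v 7))]

/-- elements of block 5 (x(1-x)*01) -/
def els5 : List (Nat × PE) := [
  (1, .sub (.sub (.add (.mul (.v 1) (.v 2)) (.mul (.c 3) (.mul (.mul (.pow (.v 0) 2) (.v 1)) (.v 2)))) (.mul (.c 3) (.mul (.mul (.v 0) (.v 1)) (.v 2)))) (.mul (.mul (.pow (.v 0) 3) (.v 1)) (.v 2))),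
  (1, .sub (.sub (.add (.mul (.v 2) (.v 4)) (.mul (.c 3) (.mul (.mul (.pow (.v 0) 2) (.v 2)) (.v 4)))) (.mul (.c 3) (.mul (.mul (.v 0) (.v 2)) (.v 4)))) (.mul (.mul (.pow (.v 0) 3) (.v 2)) (.v 4))),
  (1, .sub (.sub (.add (.mul (.v 1) (.v 5)) (.mul (.c 3) (.mul (.mul (.pow (.v 0) 2) (.v 1)) (.v 5)))) (.mul (.c 3) (.mul (.mul (.v 0) (.v 1)) (.v 5)))) (.mul (.mul (.pow (.v 0) 3) (.v 1)) (.v 5))),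
  (1, .sub (.sub (.add (.v 7) (.mul (.c 3) (.mul (.pow (.v 0) 2) (.v 7)))) (.mul (.c 3) (.mul (.v 0) (.v 7)))) (.mul (.pow (.v 0) 3) (.v 7))),
  (1, .sub (.sub (.add (.mul (.v 3) (.v 7)) (.mul (.c 3) (.mul (.mul (.pow (.v 0) 2) (.v 3)) (.v 7)))) (.mul (.c 3) (.mul (.mul (.v 0) (.v 3)) (.v 7)))) (.mul (.mul (.pow (.v 0) 3) (.v 3)) (.v 7))),
  (2, .sub (.sub (.add (.c 1) (.mul (.c 3) (.pow (.v 0) 2))) (.mul (.c 3) (.v 0))) (.pow (.v 0) 3)),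
  (2, .sub (.sub (.add (.v 3) (.mul (.c 3) (.mul (.pow (.v 0) 2) (.v 3)))) (.mul (.c 3) (.mul (.v 0) (.v 3)))) (.mul (.pow (.v 0) 3) (.v 3))),
  (2, .sub (.sub (.add (.pow (.v 1) 2) (.mul (.c 3) (.mul (.pow (.v 0) 2) (.pow (.v 1) 2)))) (.mul (.c 3) (.mul (.v 0) (.pow (.v 1) 2)))) (.mul (.pow (.v 0) 3) (.pow (.v 1) 2))),
  (2, .sub (.sub (.add (.pow (.v 2) 2) (.mul (.c 3) (.mul (.pow (.v 0) 2) (.pow (.v 2) 2)))) (.mul (.c 3) (.mul (.v 0) (.pow (.v 2) 2)))) (.mul (.pow (.v 0) 3) (.pow (.v 2) 2))),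
  (2, .sub (.sub (.add (.mul (.pow (.v 1) 2) (.v 3)) (.mul (.c 3) (.mul (.mul (.pow (.v 0) 2) (.pow (.v 1) 2)) (.v 3)))) (.mul (.c 3) (.mul (.mul (.v 0) (.pow (.v 1) 2)) (.v 3)))) (.mul (.mul (.pow (.v 0) 3) (.pow (.v 1) 2)) (.v 3))),
  (2, .sub (.sub (.add (.mul (.pow (.v 2) 2) (.v 3)) (.mul (.c 3) (.mul (.mul (.pow (.v 0) 2) (.pow (.v 2) 2)) (.v 3)))) (.mul (.c 3) (.mul (.mul (.v 0) (.pow (.v 2) 2)) (.v 3)))) (.mul (.mul (.pow (.v 0) 3) (.pow (.v 2) 2)) (.v 3))),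
  (2, .sub (.sub (.add (.mul (.v 1) (.v 4)) (.mul (.c 3) (.mul (.mul (.pow (.v 0) 2) (.v 1)) (.v 4)))) (.mul (.c 3) (.mul (.mul (.v 0) (.v 1)) (.v 4)))) (.mul (.mul (.pow (.v 0) 3) (.v 1)) (.v 4))),
  (2, .sub (.sub (.add (.mul (.v 2) (.v 5)) (.mul (.c 3) (.mul (.mul (.pow (.v 0) 2) (.v 2)) (.v 5)))) (.mul (.c 3) (.mul (.mul (.v 0) (.v 2)) (.v 5)))) (.mul (.mul (.pow (.v 0) 3) (.v 2)) (.v 5))),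
  (2, .sub (.sub (.add (.v 6) (.mul (.c 3) (.mul (.pow (.v 0) 2) (.v 6)))) (.mul (.c 3) (.mul (.v 0) (.v 6)))) (.mul (.pow (.v 0) 3) (.v 6))),
  (2, .sub (.sub (.add (.mul (.v 3) (.v 6)) (.mul (.c 3) (.mul (.mul (.pow (.v 0) 2) (.v 3)) (.v 6)))) (.mul (.c 3) (.mul (.mul (.v 0) (.v 3)) (.v 6)))) (.mul (.mul (.pow (.v 0) 3) (.v 3)) (.v 6))),
  (1, .sub (.add (.mul (.mul (.v 0) (.v 1)) (.v 2)) (.mul (.mul (.pow (.v 0) 3) (.v 1)) (.v 2))) (.mul (.c 2) (.mul (.mul (.pow (.v 0) 2) (.v 1)) (.v 2)))),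
  (1, .sub (.add (.mul (.mul (.v 0) (.v 2)) (.v 4)) (.mul (.mul (.pow (.v 0) 3) (.v 2)) (.v 4))) (.mul (.c 2) (.mul (.mul (.pow (.v 0) 2) (.v 2)) (.v 4)))),
  (1, .sub (.add (.mul (.mul (.v 0) (.v 1)) (.v 5)) (.mul (.mul (.pow (.v 0) 3) (.v 1)) (.v 5))) (.mul (.c 2) (.mul (.mul (.pow (.v 0) 2) (.v 1)) (.v 5)))),
  (1, .sub (.add (.mul (.v 0) (.v 7)) (.mul (.pow (.v 0) 3) (.v 7))) (.mul (.c 2) (.mul (.pow (.v 0) 2) (.v 7)))),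
  (1, .sub (.add (.mul (.mul (.v 0) (.v 3)) (.v 7)) (.mul (.mul (.pow (.v 0) 3) (.v 3)) (.v 7))) (.mul (.c 2) (.mul (.mul (.pow (.v 0) 2) (.v 3)) (.v 7)))),
  (2, .sub (.add (.v 0) (.pow (.v 0) 3)) (.mul (.c 2) (.pow (.v 0) 2))),
  (2, .sub (.add (.mul (.v 0) (.v 3)) (.mul (.pow (.v 0) 3) (.v 3))) (.mul (.c 2) (.mul (.pow (.v 0) 2) (.v 3)))),
  (2, .sub (.add (.mul (.v 0) (.pow (.v 1) 2)) (.mul (.pow (.v 0) 3) (.pow (.v 1) 2))) (.mul (.c 2) (.mul (.pow (.v 0) 2) (.pow (.v 1) 2)))),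
  (2, .sub (.add (.mul (.v 0) (.pow (.v 2) 2)) (.mul (.pow (.v 0) 3) (.pow (.v 2) 2))) (.mul (.c 2) (.mul (.pow (.v 0) 2) (.pow (.v 2) 2)))),
  (2, .sub (.add (.mul (.mul (.v 0) (.pow (.v 1) 2)) (.v 3)) (.mul (.mul (.pow (.v 0) 3) (.pow (.v 1) 2)) (.v 3))) (.mul (.c 2) (.mul (.mul (.pow (.v 0) 2) (.pow (.v 1) 2)) (.v 3)))),
  (2, .sub (.add (.mul (.mul (.v 0) (.pow (.v 2) 2)) (.v 3)) (.mul (.mul (.pow (.v 0) 3) (.pow (.v 2) 2)) (.v 3))) (.mul (.c 2) (.mul (.mul (.pow (.v 0) 2) (.pow (.v 2) 2)) (.v 3)))),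
  (2, .sub (.add (.mul (.mul (.v 0) (.v 1)) (.v 4)) (.mul (.mul (.pow (.v 0) 3) (.v 1)) (.v 4))) (.mul (.c 2) (.mul (.mul (.pow (.v 0) 2) (.v 1)) (.v 4)))),
  (2, .sub (.add (.mul (.mul (.v 0) (.v 2)) (.v 5)) (.mul (.mul (.pow (.v 0) 3) (.v 2)) (.v 5))) (.mul (.c 2) (.mul (.mul (.pow (.v 0) 2) (.v 2)) (.v 5)))),
  (2, .sub (.add (.mul (.v 0) (.v 6)) (.mul (.pow (.v 0) 3) (.v 6))) (.mul (.c 2) (.mul (.pow (.v 0) 2) (.v 6)))),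
  (2, .sub (.add (.mul (.mul (.v 0) (.v 3)) (.v 6)) (.mul (.mul (.pow (.v 0) 3) (.v 3)) (.v 6))) (.mul (.c 2) (.mul (.mul (.pow (.v 0) 2) (.v 3)) (.v 6)))),
  (1, .sub (.mul (.mul (.pow (.v 0) 2) (.v 1)) (.v 2)) (.mul (.mul (.pow (.v 0) 3) (.v 1)) (.v 2))),
  (1, .sub (.mul (.mul (.pow (.v 0) 2) (.v 2)) (.v 4)) (.mul (.mul (.pow (.v 0) 3) (.v 2)) (.v 4))),
  (1, .sub (.mul (.mul (.pow (.v 0) 2) (.v 1)) (.v 5)) (.mul (.mul (.pow (.v 0) 3) (.v 1)) (.v 5))),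
  (1, .sub (.mul (.pow (.v 0) 2) (.v 7)) (.mul (.pow (.v 0) 3) (.v 7))),
  (1, .sub (.mul (.mul (.pow (.v 0) 2) (.v 3)) (.v 7)) (.mul (.mul (.pow (.v 0) 3) (.v 3)) (.v 7))),
  (2, .sub (.pow (.v 0) 2) (.pow (.v 0) 3)),
  (2, .sub (.mul (.pow (.v 0) 2) (.v 3)) (.mul (.pow (.v 0) 3) (.v 3))),
  (2, .sub (.mul (.pow (.v 0) 2) (.pow (.v 1) 2)) (.mul (.pow (.v 0) 3) (.pow (.v 1) 2))),
  (2, .sub (.mul (.pow (.v 0) 2) (.pow (.v 2) 2)) (.mul (.pow (.v 0) 3) (.pow (.v 2) 2))),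
  (2, .sub (.mul (.mul (.pow (.v 0) 2) (.pow (.v 1) 2)) (.v 3)) (.mul (.mul (.pow (.v 0) 3) (.pow (.v 1) 2)) (.v 3))),
  (2, .sub (.mul (.mul (.pow (.v 0) 2) (.pow (.v 2) 2)) (.v 3)) (.mul (.mul (.pow (.v 0) 3) (.pow (.v 2) 2)) (.v 3))),
  (2, .sub (.mul (.mul (.pow (.v 0) 2) (.v 1)) (.v 4)) (.mul (.mul (.pow (.v 0) 3) (.v 1)) (.v 4))),
  (2, .sub (.mul (.mul (.pow (.v 0) 2) (.v 2)) (.v 5)) (.mul (.mul (.pow (.v 0) 3) (.v 2)) (.v 5))),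
  (2, .sub (.mul (.pow (.v 0) 2) (.v 6)) (.mul (.pow (.v 0) 3) (.v 6))),
  (2, .sub (.mul (.mul (.pow (.v 0) 2) (.v 3)) (.v 6)) (.mul (.mul (.pow (.v 0) 3) (.v 3)) (.v 6))),
  (1, .mul (.mul (.pow (.v 0) 3) (.v 1)) (.v 2)),
  (1, .mul (.mul (.pow (.v 0) 3) (.v 2)) (.v 4)),
  (1, .mul (.mul (.pow (.v 0) 3) (.v 1)) (.v 5)),
  (1, .mul (.pow (.v 0) 3) (.v 7)),
  (1, .mul (.mul (.pow (.v 0) 3) (.v 3)) (.v 7)),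
  (2, .pow (.v 0) 3),
  (2, .mul (.pow (.v 0) 3) (.v 3)),
  (2, .mul (.pow (.v 0) 3) (.pow (.v 1) 2)),
  (2, .mul (.pow (.v 0) 3) (.pow (.v 2) 2)),
  (2, .mul (.mul (.pow (.v 0) 3) (.pow (.v 1) 2)) (.v 3)),
  (2, .mul (.mul (.pow (.v 0) 3) (.pow (.v 2) 2)) (.v 3)),
  (2, .mul (.mul (.pow (.v 0) 3) (.v 1)) (.v 4)),
  (2, .mul (.mul (.pow (.v 0) 3) (.v 2)) (.v 5)),
  (2, .mul (.pow (.v 0) 3) (.v 6)),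
  (2, .mul (.mul (.pow (.v 0) 3) (.v 3)) (.v 6))]

/-- elements of block 6 (x(1-x)*10) -/
def els6 : List (Nat × PE) := [
  (1, .sub (.sub (.add (.v 1) (.mul (.c 3) (.mul (.pow (.v 0) 2) (.v 1)))) (.mul (.c 3) (.mul (.v 0) (.v 1)))) (.mul (.pow (.v 0) 3) (.v 1))),
  (1, .sub (.sub (.add (.mul (.v 1) (.v 3)) (.mul (.c 3) (.mul (.mul (.pow (.v 0) 2) (.v 1)) (.v 3)))) (.mul (.c 3) (.mul (.mul (.v 0) (.v 1)) (.v 3)))) (.mul (.mul (.pow (.v 0) 3) (.v 1)) (.v 3))),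
  (1, .sub (.sub (.add (.pow (.v 1) 3) (.mul (.c 3) (.mul (.pow (.v 0) 2) (.pow (.v 1) 3)))) (.mul (.c 3) (.mul (.v 0) (.pow (.v 1) 3)))) (.mul (.pow (.v 0) 3) (.pow (.v 1) 3))),
  (1, .sub (.sub (.add (.mul (.v 1) (.pow (.v 2) 2)) (.mul (.c 3) (.mul (.mul (.pow (.v 0) 2) (.v 1)) (.pow (.v 2) 2)))) (.mul (.c 3) (.mul (.mul (.v 0) (.v 1)) (.pow (.v 2) 2)))) (.mul (.mul (.pow (.v 0) 3) (.v 1)) (.pow (.v 2) 2))),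
  (1, .sub (.sub (.add (.v 4) (.mul (.c 3) (.mul (.pow (.v 0) 2) (.v 4)))) (.mul (.c 3) (.mul (.v 0) (.v 4)))) (.mul (.pow (.v 0) 3) (.v 4))),
  (1, .sub (.sub (.add (.mul (.v 3) (.v 4)) (.mul (.c 3) (.mul (.mul (.pow (.v 0) 2) (.v 3)) (.v 4)))) (.mul (.c 3) (.mul (.mul (.v 0) (.v 3)) (.v 4)))) (.mul (.mul (.pow (.v 0) 3) (.v 3)) (.v 4))),
  (1, .sub (.sub (.add (.mul (.v 1) (.v 6)) (.mul (.c 3) (.mul (.mul (.pow (.v 0) 2) (.v 1)) (.v 6)))) (.mul (.c 3) (.mul (.mul (.v 0) (.v 1)) (.v 6)))) (.mul (.mul (.pow (.v 0) 3) (.v 1)) (.v 6))),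
  (1, .sub (.sub (.add (.mul (.v 2) (.v 7)) (.mul (.c 3) (.mul (.mul (.pow (.v 0) 2) (.v 2)) (.v 7)))) (.mul (.c 3) (.mul (.mul (.v 0) (.v 2)) (.v 7)))) (.mul (.mul (.pow (.v 0) 3) (.v 2)) (.v 7))),
  (2, .sub (.sub (.add (.v 2) (.mul (.c 3) (.mul (.pow (.v 0) 2) (.v 2)))) (.mul (.c 3) (.mul (.v 0) (.v 2)))) (.mul (.pow (.v 0) 3) (.v 2))),
  (2, .sub (.sub (.add (.mul (.v 2) (.v 3)) (.mul (.c 3) (.mul (.mul (.pow (.v 0) 2) (.v 2)) (.v 3)))) (.mul (.c 3) (.mul (.mul (.v 0) (.v 2)) (.v 3)))) (.mul (.mul (.pow (.v 0) 3) (.v 2)) (.v 3))),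
  (2, .sub (.sub (.add (.mul (.pow (.v 1) 2) (.v 2)) (.mul (.c 3) (.mul (.mul (.pow (.v 0) 2) (.pow (.v 1) 2)) (.v 2)))) (.mul (.c 3) (.mul (.mul (.v 0) (.pow (.v 1) 2)) (.v 2)))) (.mul (.mul (.pow (.v 0) 3) (.pow (.v 1) 2)) (.v 2))),
  (2, .sub (.sub (.add (.pow (.v 2) 3) (.mul (.c 3) (.mul (.pow (.v 0) 2) (.pow (.v 2) 3)))) (.mul (.c 3) (.mul (.v 0) (.pow (.v 2) 3)))) (.mul (.pow (.v 0) 3) (.pow (.v 2) 3))),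
  (2, .sub (.sub (.add (.v 5) (.mul (.c 3) (.mul (.pow (.v 0) 2) (.v 5)))) (.mul (.c 3) (.mul (.v 0) (.v 5)))) (.mul (.pow (.v 0) 3) (.v 5))),
  (2, .sub (.sub (.add (.mul (.v 3) (.v 5)) (.mul (.c 3) (.mul (.mul (.pow (.v 0) 2) (.v 3)) (.v 5)))) (.mul (.c 3) (.mul (.mul (.v 0) (.v 3)) (.v 5)))) (.mul (.mul (.pow (.v 0) 3) (.v 3)) (.v 5))),
  (2, .sub (.sub (.add (.mul (.v 2) (.v 6)) (.mul (.c 3) (.mul (.mul (.pow (.v 0) 2) (.v 2)) (.v 6)))) (.mul (.c 3) (.mul (.mul (.v 0) (.v 2)) (.v 6)))) (.mul (.mul (.pow (.v 0) 3) (.v 2)) (.v 6))),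
  (2, .sub (.sub (.add (.mul (.v 1) (.v 7)) (.mul (.c 3) (.mul (.mul (.pow (.v 0) 2) (.v 1)) (.v 7)))) (.mul (.c 3) (.mul (.mul (.v 0) (.v 1)) (.v 7)))) (.mul (.mul (.pow (.v 0) 3) (.v 1)) (.v 7))),
  (3, .sub (.sub (.add (.v 1) (.mul (.c 3) (.mul (.pow (.v 0) 2) (.v 1)))) (.mul (.c 3) (.mul (.v 0) (.v 1)))) (.mul (.pow (.v 0) 3) (.v 1))),
  (1, .sub (.add (.mul (.v 0) (.v 1)) (.mul (.pow (.v 0) 3) (.v 1))) (.mul (.c 2) (.mul (.pow (.v 0) 2) (.v 1)))),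
  (1, .sub (.add (.mul (.mul (.v 0) (.v 1)) (.v 3)) (.mul (.mul (.pow (.v 0) 3) (.v 1)) (.v 3))) (.mul (.c 2) (.mul (.mul (.pow (.v 0) 2) (.v 1)) (.v 3)))),
  (1, .sub (.add (.mul (.v 0) (.pow (.v 1) 3)) (.mul (.pow (.v 0) 3) (.pow (.v 1) 3))) (.mul (.c 2) (.mul (.pow (.v 0) 2) (.pow (.v 1) 3)))),
  (1, .sub (.add (.mul (.mul (.v 0) (.v 1)) (.pow (.v 2) 2)) (.mul (.mul (.pow (.v 0) 3) (.v 1)) (.pow (.v 2) 2))) (.mul (.c 2) (.mul (.mul (.pow (.v 0) 2) (.v 1)) (.pow (.v 2) 2)))),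
  (1, .sub (.add (.mul (.v 0) (.v 4)) (.mul (.pow (.v 0) 3) (.v 4))) (.mul (.c 2) (.mul (.pow (.v 0) 2) (.v 4)))),
  (1, .sub (.add (.mul (.mul (.v 0) (.v 3)) (.v 4)) (.mul (.mul (.pow (.v 0) 3) (.v 3)) (.v 4))) (.mul (.c 2) (.mul (.mul (.pow (.v 0) 2) (.v 3)) (.v 4)))),
  (1, .sub (.add (.mul (.mul (.v 0) (.v 1)) (.v 6)) (.mul (.mul (.pow (.v 0) 3) (.v 1)) (.v 6))) (.mul (.c 2) (.mul (.mul (.pow (.v 0) 2) (.v 1)) (.v 6)))),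
  (1, .sub (.add (.mul (.mul (.v 0) (.v 2)) (.v 7)) (.mul (.mul (.pow (.v 0) 3) (.v 2)) (.v 7))) (.mul (.c 2) (.mul (.mul (.pow (.v 0) 2) (.v 2)) (.v 7)))),
  (2, .sub (.add (.mul (.v 0) (.v 2)) (.mul (.pow (.v 0) 3) (.v 2))) (.mul (.c 2) (.mul (.pow (.v 0) 2) (.v 2)))),
  (2, .sub (.add (.mul (.mul (.v 0) (.v 2)) (.v 3)) (.mul (.mul (.pow (.v 0) 3) (.v 2)) (.v 3))) (.mul (.c 2) (.mul (.mul (.pow (.v 0) 2) (.v 2)) (.v 3)))),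
  (2, .sub (.add (.mul (.mul (.v 0) (.pow (.v 1) 2)) (.v 2)) (.mul (.mul (.pow (.v 0) 3) (.pow (.v 1) 2)) (.v 2))) (.mul (.c 2) (.mul (.mul (.pow (.v 0) 2) (.pow (.v 1) 2)) (.v 2)))),
  (2, .sub (.add (.mul (.v 0) (.pow (.v 2) 3)) (.mul (.pow (.v 0) 3) (.pow (.v 2) 3))) (.mul (.c 2) (.mul (.pow (.v 0) 2) (.pow (.v 2) 3)))),
  (2, .sub (.add (.mul (.v 0) (.v 5)) (.mul (.pow (.v 0) 3) (.v 5))) (.mul (.c 2) (.mul (.pow (.v 0) 2) (.v 5)))),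
  (2, .sub (.add (.mul (.mul (.v 0) (.v 3)) (.v 5)) (.mul (.mul (.pow (.v 0) 3) (.v 3)) (.v 5))) (.mul (.c 2) (.mul (.mul (.pow (.v 0) 2) (.v 3)) (.v 5)))),
  (2, .sub (.add (.mul (.mul (.v 0) (.v 2)) (.v 6)) (.mul (.mul (.pow (.v 0) 3) (.v 2)) (.v 6))) (.mul (.c 2) (.mul (.mul (.pow (.v 0) 2) (.v 2)) (.v 6)))),
  (2, .sub (.add (.mul (.mul (.v 0) (.v 1)) (.v 7)) (.mul (.mul (.pow (.v 0) 3) (.v 1)) (.v 7))) (.mul (.c 2) (.mul (.mul (.pow (.v 0) 2) (.v 1)) (.v 7)))),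
  (3, .sub (.add (.mul (.v 0) (.v 1)) (.mul (.pow (.v 0) 3) (.v 1))) (.mul (.c 2) (.mul (.pow (.v 0) 2) (.v 1)))),
  (1, .sub (.mul (.pow (.v 0) 2) (.v 1)) (.mul (.pow (.v 0) 3) (.v 1))),
  (1, .sub (.mul (.mul (.pow (.v 0) 2) (.v 1)) (.v 3)) (.mul (.mul (.pow (.v 0) 3) (.v 1)) (.v 3))),
  (1, .sub (.mul (.pow (.v 0) 2) (.pow (.v 1) 3)) (.mul (.pow (.v 0) 3) (.pow (.v 1) 3))),
  (1, .sub (.mul (.mul (.pow (.v 0) 2) (.v 1)) (.pow (.v 2) 2)) (.mul (.mul (.pow (.v 0) 3) (.v 1)) (.pow (.v 2) 2))),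
  (1, .sub (.mul (.pow (.v 0) 2) (.v 4)) (.mul (.pow (.v 0) 3) (.v 4))),
  (1, .sub (.mul (.mul (.pow (.v 0) 2) (.v 3)) (.v 4)) (.mul (.mul (.pow (.v 0) 3) (.v 3)) (.v 4))),
  (1, .sub (.mul (.mul (.pow (.v 0) 2) (.v 1)) (.v 6)) (.mul (.mul (.pow (.v 0) 3) (.v 1)) (.v 6))),
  (1, .sub (.mul (.mul (.pow (.v 0) 2) (.v 2)) (.v 7)) (.mul (.mul (.pow (.v 0) 3) (.v 2)) (.v 7))),
  (2, .sub (.mul (.pow (.v 0) 2) (.v 2)) (.mul (.pow (.v 0) 3) (.v 2))),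
  (2, .sub (.mul (.mul (.pow (.v 0) 2) (.v 2)) (.v 3)) (.mul (.mul (.pow (.v 0) 3) (.v 2)) (.v 3))),
  (2, .sub (.mul (.mul (.pow (.v 0) 2) (.pow (.v 1) 2)) (.v 2)) (.mul (.mul (.pow (.v 0) 3) (.pow (.v 1) 2)) (.v 2))),
  (2, .sub (.mul (.pow (.v 0) 2) (.pow (.v 2) 3)) (.mul (.pow (.v 0) 3) (.pow (.v 2) 3))),
  (2, .sub (.mul (.pow (.v 0) 2) (.v 5)) (.mul (.pow (.v 0) 3) (.v 5))),
  (2, .sub (.mul (.mul (.pow (.v 0) 2) (.v 3)) (.v 5)) (.mul (.mul (.pow (.v 0) 3) (.v 3)) (.v 5))),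
  (2, .sub (.mul (.mul (.pow (.v 0) 2) (.v 2)) (.v 6)) (.mul (.mul (.pow (.v 0) 3) (.v 2)) (.v 6))),
  (2, .sub (.mul (.mul (.pow (.v 0) 2) (.v 1)) (.v 7)) (.mul (.mul (.pow (.v 0) 3) (.v 1)) (.v 7))),
  (3, .sub (.mul (.pow (.v 0) 2) (.v 1)) (.mul (.pow (.v 0) 3) (.v 1))),
  (1, .mul (.pow (.v 0) 3) (.v 1)),
  (1, .mul (.mul (.pow (.v 0) 3) (.v 1)) (.v 3)),
  (1, .mul (.pow (.v 0) 3) (.pow (.v 1) 3)),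
  (1, .mul (.mul (.pow (.v 0) 3) (.v 1)) (.pow (.v 2) 2)),
  (1, .mul (.pow (.v 0) 3) (.v 4)),
  (1, .mul (.mul (.pow (.v 0) 3) (.v 3)) (.v 4)),
  (1, .mul (.mul (.pow (.v 0) 3) (.v 1)) (.v 6)),
  (1, .mul (.mul (.pow (.v 0) 3) (.v 2)) (.v 7)),
  (2, .mul (.pow (.v 0) 3) (.v 2)),
  (2, .mul (.mul (.pow (.v 0) 3) (.v 2)) (.v 3)),
  (2, .mul (.mul (.pow (.v 0) 3) (.pow (.v 1) 2)) (.v 2)),
  (2, .mul (.pow (.v 0) 3) (.pow (.v 2) 3)),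
  (2, .mul (.pow (.v 0) 3) (.v 5)),
  (2, .mul (.mul (.pow (.v 0) 3) (.v 3)) (.v 5)),
  (2, .mul (.mul (.pow (.v 0) 3) (.v 2)) (.v 6)),
  (2, .mul (.mul (.pow (.v 0) 3) (.v 1)) (.v 7)),
  (3, .mul (.pow (.v 0) 3) (.v 1))]

/-- elements of block 7 (x(1-x)*11) -/
def els7 : List (Nat × PE) := [
  (1, .sub (.sub (.add (.v 2) (.mul (.c 3) (.mul (.pow (.v 0) 2) (.v 2)))) (.mul (.c 3) (.mul (.v 0) (.v 2)))) (.mul (.pow (.v 0) 3) (.v 2))),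
  (1, .sub (.sub (.add (.mul (.v 2) (.v 3)) (.mul (.c 3) (.mul (.mul (.pow (.v 0) 2) (.v 2)) (.v 3)))) (.mul (.c 3) (.mul (.mul (.v 0) (.v 2)) (.v 3)))) (.mul (.mul (.pow (.v 0) 3) (.v 2)) (.v 3))),
  (1, .sub (.sub (.add (.mul (.pow (.v 1) 2) (.v 2)) (.mul (.c 3) (.mul (.mul (.pow (.v 0) 2) (.pow (.v 1) 2)) (.v 2)))) (.mul (.c 3) (.mul (.mul (.v 0) (.pow (.v 1) 2)) (.v 2)))) (.mul (.mul (.pow (.v 0) 3) (.pow (.v 1) 2)) (.v 2))),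
  (1, .sub (.sub (.add (.pow (.v 2) 3) (.mul (.c 3) (.mul (.pow (.v 0) 2) (.pow (.v 2) 3)))) (.mul (.c 3) (.mul (.v 0) (.pow (.v 2) 3)))) (.mul (.pow (.v 0) 3) (.pow (.v 2) 3))),
  (1, .sub (.sub (.add (.v 5) (.mul (.c 3) (.mul (.pow (.v 0) 2) (.v 5)))) (.mul (.c 3) (.mul (.v 0) (.v 5)))) (.mul (.pow (.v 0) 3) (.v 5))),
  (1, .sub (.sub (.add (.mul (.v 3) (.v 5)) (.mul (.c 3) (.mul (.mul (.pow (.v 0) 2) (.v 3)) (.v 5)))) (.mul (.c 3) (.mul (.mul (.v 0) (.v 3)) (.v 5)))) (.mul (.mul (.pow (.v 0) 3) (.v 3)) (.v 5))),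
  (1, .sub (.sub (.add (.mul (.v 2) (.v 6)) (.mul (.c 3) (.mul (.mul (.pow (.v 0) 2) (.v 2)) (.v 6)))) (.mul (.c 3) (.mul (.mul (.v 0) (.v 2)) (.v 6)))) (.mul (.mul (.pow (.v 0) 3) (.v 2)) (.v 6))),
  (1, .sub (.sub (.add (.mul (.v 1) (.v 7)) (.mul (.c 3) (.mul (.mul (.pow (.v 0) 2) (.v 1)) (.v 7)))) (.mul (.c 3) (.mul (.mul (.v 0) (.v 1)) (.v 7)))) (.mul (.mul (.pow (.v 0) 3) (.v 1)) (.v 7))),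
  (2, .sub (.sub (.add (.v 1) (.mul (.c 3) (.mul (.pow (.v 0) 2) (.v 1)))) (.mul (.c 3) (.mul (.v 0) (.v 1)))) (.mul (.pow (.v 0) 3) (.v 1))),
  (2, .sub (.sub (.add (.mul (.v 1) (.v 3)) (.mul (.c 3) (.mul (.mul (.pow (.v 0) 2) (.v 1)) (.v 3)))) (.mul (.c 3) (.mul (.mul (.v 0) (.v 1)) (.v 3)))) (.mul (.mul (.pow (.v 0) 3) (.v 1)) (.v 3))),
  (2, .sub (.sub (.add (.pow (.v 1) 3) (.mul (.c 3) (.mul (.pow (.v 0) 2) (.pow (.v 1) 3)))) (.mul (.c 3) (.mul (.v 0) (.pow (.v 1) 3)))) (.mul (.pow (.v 0) 3) (.pow (.v 1) 3))),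
  (2, .sub (.sub (.add (.mul (.v 1) (.pow (.v 2) 2)) (.mul (.c 3) (.mul (.mul (.pow (.v 0) 2) (.v 1)) (.pow (.v 2) 2)))) (.mul (.c 3) (.mul (.mul (.v 0) (.v 1)) (.pow (.v 2) 2)))) (.mul (.mul (.pow (.v 0) 3) (.v 1)) (.pow (.v 2) 2))),
  (2, .sub (.sub (.add (.v 4) (.mul (.c 3) (.mul (.pow (.v 0) 2) (.v 4)))) (.mul (.c 3) (.mul (.v 0) (.v 4)))) (.mul (.pow (.v 0) 3) (.v 4))),
  (2, .sub (.sub (.add (.mul (.v 3) (.v 4)) (.mul (.c 3) (.mul (.mul (.pow (.v 0) 2) (.v 3)) (.v 4)))) (.mul (.c 3) (.mul (.mul (.v 0) (.v 3)) (.v 4)))) (.mul (.mul (.pow (.v 0) 3) (.v 3)) (.v 4))),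
  (2, .sub (.sub (.add (.mul (.v 1) (.v 6)) (.mul (.c 3) (.mul (.mul (.pow (.v 0) 2) (.v 1)) (.v 6)))) (.mul (.c 3) (.mul (.mul (.v 0) (.v 1)) (.v 6)))) (.mul (.mul (.pow (.v 0) 3) (.v 1)) (.v 6))),
  (2, .sub (.sub (.add (.mul (.v 2) (.v 7)) (.mul (.c 3) (.mul (.mul (.pow (.v 0) 2) (.v 2)) (.v 7)))) (.mul (.c 3) (.mul (.mul (.v 0) (.v 2)) (.v 7)))) (.mul (.mul (.pow (.v 0) 3) (.v 2)) (.v 7))),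
  (3, .sub (.sub (.add (.v 2) (.mul (.c 3) (.mul (.pow (.v 0) 2) (.v 2)))) (.mul (.c 3) (.mul (.v 0) (.v 2)))) (.mul (.pow (.v 0) 3) (.v 2))),
  (1, .sub (.add (.mul (.v 0) (.v 2)) (.mul (.pow (.v 0) 3) (.v 2))) (.mul (.c 2) (.mul (.pow (.v 0) 2) (.v 2)))),
  (1, .sub (.add (.mul (.mul (.v 0) (.v 2)) (.v 3)) (.mul (.mul (.pow (.v 0) 3) (.v 2)) (.v 3))) (.mul (.c 2) (.mul (.mul (.pow (.v 0) 2) (.v 2)) (.v 3)))),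
  (1, .sub (.add (.mul (.mul (.v 0) (.pow (.v 1) 2)) (.v 2)) (.mul (.mul (.pow (.v 0) 3) (.pow (.v 1) 2)) (.v 2))) (.mul (.c 2) (.mul (.mul (.pow (.v 0) 2) (.pow (.v 1) 2)) (.v 2)))),
  (1, .sub (.add (.mul (.v 0) (.pow (.v 2) 3)) (.mul (.pow (.v 0) 3) (.pow (.v 2) 3))) (.mul (.c 2) (.mul (.pow (.v 0) 2) (.pow (.v 2) 3)))),
  (1, .sub (.add (.mul (.v 0) (.v 5)) (.mul (.pow (.v 0) 3) (.v 5))) (.mul (.c 2) (.mul (.pow (.v 0) 2) (.v 5)))),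
  (1, .sub (.add (.mul (.mul (.v 0) (.v 3)) (.v 5)) (.mul (.mul (.pow (.v 0) 3) (.v 3)) (.v 5))) (.mul (.c 2) (.mul (.mul (.pow (.v 0) 2) (.v 3)) (.v 5)))),
  (1, .sub (.add (.mul (.mul (.v 0) (.v 2)) (.v 6)) (.mul (.mul (.pow (.v 0) 3) (.v 2)) (.v 6))) (.mul (.c 2) (.mul (.mul (.pow (.v 0) 2) (.v 2)) (.v 6)))),
  (1, .sub (.add (.mul (.mul (.v 0) (.v 1)) (.v 7)) (.mul (.mul (.pow (.v 0) 3) (.v 1)) (.v 7))) (.mul (.c 2) (.mul (.mul (.pow (.v 0) 2) (.v 1)) (.v 7)))),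
  (2, .sub (.add (.mul (.v 0) (.v 1)) (.mul (.pow (.v 0) 3) (.v 1))) (.mul (.c 2) (.mul (.pow (.v 0) 2) (.v 1)))),
  (2, .sub (.add (.mul (.mul (.v 0) (.v 1)) (.v 3)) (.mul (.mul (.pow (.v 0) 3) (.v 1)) (.v 3))) (.mul (.c 2) (.mul (.mul (.pow (.v 0) 2) (.v 1)) (.v 3)))),
  (2, .sub (.add (.mul (.v 0) (.pow (.v 1) 3)) (.mul (.pow (.v 0) 3) (.pow (.v 1) 3))) (.mul (.c 2) (.mul (.pow (.v 0) 2) (.pow (.v 1) 3)))),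
  (2, .sub (.add (.mul (.mul (.v 0) (.v 1)) (.pow (.v 2) 2)) (.mul (.mul (.pow (.v 0) 3) (.v 1)) (.pow (.v 2) 2))) (.mul (.c 2) (.mul (.mul (.pow (.v 0) 2) (.v 1)) (.pow (.v 2) 2)))),
  (2, .sub (.add (.mul (.v 0) (.v 4)) (.mul (.pow (.v 0) 3) (.v 4))) (.mul (.c 2) (.mul (.pow (.v 0) 2) (.v 4)))),
  (2, .sub (.add (.mul (.mul (.v 0) (.v 3)) (.v 4)) (.mul (.mul (.pow (.v 0) 3) (.v 3)) (.v 4))) (.mul (.c 2) (.mul (.mul (.pow (.v 0) 2) (.v 3)) (.v 4)))),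
  (2, .sub (.add (.mul (.mul (.v 0) (.v 1)) (.v 6)) (.mul (.mul (.pow (.v 0) 3) (.v 1)) (.v 6))) (.mul (.c 2) (.mul (.mul (.pow (.v 0) 2) (.v 1)) (.v 6)))),
  (2, .sub (.add (.mul (.mul (.v 0) (.v 2)) (.v 7)) (.mul (.mul (.pow (.v 0) 3) (.v 2)) (.v 7))) (.mul (.c 2) (.mul (.mul (.pow (.v 0) 2) (.v 2)) (.v 7)))),
  (3, .sub (.add (.mul (.v 0) (.v 2)) (.mul (.pow (.v 0) 3) (.v 2))) (.mul (.c 2) (.mul (.pow (.v 0) 2) (.v 2)))),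
  (1, .sub (.mul (.pow (.v 0) 2) (.v 2)) (.mul (.pow (.v 0) 3) (.v 2))),
  (1, .sub (.mul (.mul (.pow (.v 0) 2) (.v 2)) (.v 3)) (.mul (.mul (.pow (.v 0) 3) (.v 2)) (.v 3))),
  (1, .sub (.mul (.mul (.pow (.v 0) 2) (.pow (.v 1) 2)) (.v 2)) (.mul (.mul (.pow (.v 0) 3) (.pow (.v 1) 2)) (.v 2))),
  (1, .sub (.mul (.pow (.v 0) 2) (.pow (.v 2) 3)) (.mul (.pow (.v 0) 3) (.pow (.v 2) 3))),
  (1, .sub (.mul (.pow (.v 0) 2) (.v 5)) (.mul (.pow (.v 0) 3) (.v 5))),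
  (1, .sub (.mul (.mul (.pow (.v 0) 2) (.v 3)) (.v 5)) (.mul (.mul (.pow (.v 0) 3) (.v 3)) (.v 5))),
  (1, .sub (.mul (.mul (.pow (.v 0) 2) (.v 2)) (.v 6)) (.mul (.mul (.pow (.v 0) 3) (.v 2)) (.v 6))),
  (1, .sub (.mul (.mul (.pow (.v 0) 2) (.v 1)) (.v 7)) (.mul (.mul (.pow (.v 0) 3) (.v 1)) (.v 7))),
  (2, .sub (.mul (.pow (.v 0) 2) (.v 1)) (.mul (.pow (.v 0) 3) (.v 1))),
  (2, .sub (.mul (.mul (.pow (.v 0) 2) (.v 1)) (.v 3)) (.mul (.mul (.pow (.v 0) 3) (.v 1)) (.v 3))),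
  (2, .sub (.mul (.pow (.v 0) 2) (.pow (.v 1) 3)) (.mul (.pow (.v 0) 3) (.pow (.v 1) 3))),
  (2, .sub (.mul (.mul (.pow (.v 0) 2) (.v 1)) (.pow (.v 2) 2)) (.mul (.mul (.pow (.v 0) 3) (.v 1)) (.pow (.v 2) 2))),
  (2, .sub (.mul (.pow (.v 0) 2) (.v 4)) (.mul (.pow (.v 0) 3) (.v 4))),
  (2, .sub (.mul (.mul (.pow (.v 0) 2) (.v 3)) (.v 4)) (.mul (.mul (.pow (.v 0) 3) (.v 3)) (.v 4))),
  (2, .sub (.mul (.mul (.pow (.v 0) 2) (.v 1)) (.v 6)) (.mul (.mul (.pow (.v 0) 3) (.v 1)) (.v 6))),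
  (2, .sub (.mul (.mul (.pow (.v 0) 2) (.v 2)) (.v 7)) (.mul (.mul (.pow (.v 0) 3) (.v 2)) (.v 7))),
  (3, .sub (.mul (.pow (.v 0) 2) (.v 2)) (.mul (.pow (.v 0) 3) (.v 2))),
  (1, .mul (.pow (.v 0) 3) (.v 2)),
  (1, .mul (.mul (.pow (.v 0) 3) (.v 2)) (.v 3)),
  (1, .mul (.mul (.pow (.v 0) 3) (.pow (.v 1) 2)) (.v 2)),
  (1, .mul (.pow (.v 0) 3) (.pow (.v 2) 3)),
  (1, .mul (.pow (.v 0) 3) (.v 5)),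
  (1, .mul (.mul (.pow (.v 0) 3) (.v 3)) (.v 5)),
  (1, .mul (.mul (.pow (.v 0) 3) (.v 2)) (.v 6)),
  (1, .mul (.mul (.pow (.v 0) 3) (.v 1)) (.v 7)),
  (2, .mul (.pow (.v 0) 3) (.v 1)),
  (2, .mul (.mul (.pow (.v 0) 3) (.v 1)) (.v 3)),
  (2, .mul (.pow (.v 0) 3) (.pow (.v 1) 3)),
  (2, .mul (.mul (.pow (.v 0) 3) (.v 1)) (.pow (.v 2) 2)),
  (2, .mul (.pow (.v 0) 3) (.v 4)),
  (2, .mul (.mul (.pow (.v 0) 3) (.v 3)) (.v 4)),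
  (2, .mul (.mul (.pow (.v 0) 3) (.v 1)) (.v 6)),
  (2, .mul (.mul (.pow (.v 0) 3) (.v 2)) (.v 7)),
  (3, .mul (.pow (.v 0) 3) (.v 2))]

end

end Vale.Agent.P224.PU.U1413
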