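import Vale.Agent.P224.PU.ValK
import Vale.Agent.P224.PU.U1413.Id

/-!
The volume bound `23153 / 16384 * |S ^ m|` in every dimension.
-/

namespace Vale.Agent.P224.PU.U1413

open MeasureTheory Set Filter Function Module Vale.Agent.P224 Vale.Agent.P224.UE
open Vale.Agent.P224.UG Vale.Agent.P224.POS
open scoped Topology RealInnerProductSpace ENNReal ContDiff Manifold

noncomputable section

theorem okK_rows : okK rows = true := by decide +kernel

lemma ls (a : ℤ) (l : List ℤ) : lsum (a :: l) = a + lsum l := rfl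

lemma ls0 : lsum [] = 0 := rfl

/-- the value at level zero -/
theorem V0_eq (u r : ℝ) : V0 (certK D rows) u r
    = 1 - 41348123 / 33554432 * u + 3394053 / 8388608 * r + 4319725 / 16777216 * u ^ 2 := by
  unfold rows
  simp only [V0_cons, V0_nil, ls, ls0, GTerm.v0, v3, D]
  push_cast
  ring

/-- the value at level one -/
theorem V1_eq (u r : ℝ) : V1 (certK D rows) u r
    = 23153 / 16384 - 26111259 / 16777216 * u + 9592591 / 16777216 * r := by
  unfold rows
  simp only [V1_cons, V1_nil, List.headD_cons, GTerm.v1, v3, D]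
  push_cast
  ring

/-- the numeric law -/
theorem hnum {Θ u r : ℝ} (h1 : 6 / 5 ≤ Θ) (h2 : Θ < 23153 / 16384) (h3 : 0 ≤ u)
    (h4 : Θ ^ 2 * u ≤ 1) (h5 : u ^ 2 ≤ r) (h6 : r ≤ u) :
    Θ * V0 (certK D rows) u r < V1 (certK D rows) u r := by
  rw [V0_eq, V1_eq]
  obtain ⟨t, ht⟩ : ∃ t, t = 23153 / 16384 - Θ := ⟨_, rfl⟩
  have hΘ : Θ = 23153 / 16384 - t := by linarith
  subst hΘ
  have ht0 : 0 < t := by linarith
  have ht1 : t ≤ 21315 / 100000 := by linarith
  -- the bound for `u`
  have hB : 1 ≤ (23153 / 16384 - t) ^ 2 * (5008 / 10000 + 909 / 1000 * t) := by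
    nlinarith [mul_nonneg ht0.le (sub_nonneg.2 ht1),
      mul_nonneg (mul_nonneg ht0.le (sub_nonneg.2 ht1)) ht0.le]
  have hu : u ≤ 5008 / 10000 + 909 / 1000 * t := by
    by_contra hcon
    rw [not_le] at hcon
    have hΘ : 0 < (23153 / 16384 - t) ^ 2 := by
      have : 0 < 23153 / 16384 - t := by linarith
      positivity
    have := mul_lt_mul_of_pos_left hcon hΘ
    linarith
  -- the `r`-term
  have hr : r * ((23153 / 16384 - t) * (3394053 / 8388608) - 9592591 / 16777216)
      ≤ u ^ 2 * ((23153 / 16384 - t) * (3394053 / 8388608) - 9592591 / 16777216)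
        + 1 / 10000000 * u := by
    rcases le_total ((23153 / 16384 - t) * (3394053 / 8388608)) (9592591 / 16777216) with hc | hc
    · have := mul_nonneg (sub_nonneg.2 hc) (sub_nonneg.2 h5)
      nlinarith
    · have ha : (23153 / 16384 - t) * (3394053 / 8388608) - 9592591 / 16777216
          ≤ 1 / 10000000 := by
        have := mul_nonneg ht0.le (by norm_num : (0 : ℝ) ≤ 3394053 / 8388608)
        norm_num at this ⊢
        linarith
      have hb := mul_nonneg (sub_nonneg.2 hc) (sub_nonneg.2 h6)
      have hc' := mul_nonneg (sub_nonneg.2 ha) h3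
      have hd := mul_nonneg (sub_nonneg.2 hc) (sq_nonneg u)
      nlinarith
  -- the slope
  have hγ : 0 ≤ 363 / 1000 - 663 / 1000 * t := by linarith
  have hg : u * ((23153 / 16384 - t) * (3394053 / 8388608) - 9592591 / 16777216
        + (23153 / 16384 - t) * (4319725 / 16777216))
      ≤ (5008 / 10000 + 909 / 1000 * t) * ((23153 / 16384 - t) * (3394053 / 8388608)
        - 9592591 / 16777216 + (23153 / 16384 - t) * (4319725 / 16777216)) := by
    refine mul_le_mul_of_nonneg_right hu ?_
    linarith
  obtain ⟨g, hgd⟩ : ∃ g, g = 26111259 / 16777216 - (23153 / 16384 - t) * (41348123 / 33554432)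
      + 1 / 10000000 + u * ((23153 / 16384 - t) * (3394053 / 8388608) - 9592591 / 16777216
        + (23153 / 16384 - t) * (4319725 / 16777216)) := ⟨_, rfl⟩
  have hg2 : g ≤ -2797 / 1000000 + 12319 / 10000 * t := by
    nlinarith [mul_nonneg ht0.le ht0.le]
  have key : u * g < t := by
    rcases le_total g 0 with hg0 | hg0
    · have := mul_nonneg h3 (neg_nonneg.2 hg0)
      linarith
    · have h8 : u * g ≤ (5008 / 10000 + 909 / 1000 * t) * (-2797 / 1000000 + 12319 / 10000 * t) := by
        refine (mul_le_mul_of_nonneg_right hu hg0).trans (mul_le_mul_of_nonneg_left hg2 ?_)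
        linarith
      nlinarith [mul_nonneg ht0.le (sub_nonneg.2 ht1)]
  have e1 : (23153 / 16384 - t) * (1 - 41348123 / 33554432 * u + 3394053 / 8388608 * r
      + 4319725 / 16777216 * u ^ 2) - (23153 / 16384 - 26111259 / 16777216 * u
        + 9592591 / 16777216 * r)
      = -t + u * (26111259 / 16777216 - (23153 / 16384 - t) * (41348123 / 33554432))
        + r * ((23153 / 16384 - t) * (3394053 / 8388608) - 9592591 / 16777216)
        + u ^ 2 * ((23153 / 16384 - t) * (4319725 / 16777216)) := by ring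
  have e2 : u * g = u * (26111259 / 16777216 - (23153 / 16384 - t) * (41348123 / 33554432))
      + 1 / 10000000 * u + u ^ 2 * ((23153 / 16384 - t) * (3394053 / 8388608)
        - 9592591 / 16777216) + u ^ 2 * ((23153 / 16384 - t) * (4319725 / 16777216)) := by
    rw [hgd]; ring
  linarith

end

section

variable {V W M : Type*} [NormedAddCommGroup V] [InnerProductSpace ℝ V] [FiniteDimensional ℝ V]
  [NormedAddCommGroup W] [InnerProductSpace ℝ W] [FiniteDimensional ℝ W]
  [TopologicalSpace M] [ChartedSpace V M]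
  [MeasurableSpace V] [BorelSpace V] [MeasurableSpace M] [BorelSpace M]
  [IsManifold 𝓘(ℝ, V) ∞ M] [CompactSpace M] [T2Space M] [ConnectedSpace M]
  [MeasurableSpace W] [BorelSpace W]

/-- **The universal bound.** In every dimension `m ≥ 2` a closed connected minimal hypersurface of
the sphere, immersed and not contained in a great sphere, has at least `23153 / 16384 > 1.413` times
the volume of the great sphere. -/
theorem mainU (hm : 2 ≤ finrank ℝ V) (hW : finrank ℝ W = finrank ℝ V + 2)
    {F : M → W} (hF : SphImm V F) (hmin : ∀ x n, IsUnitNormal V F x n → meanCurv V F x n = 0)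
    (hng : ¬ ∃ a : W, a ≠ 0 ∧ ∀ x, ⟪F x, a⟫ = 0) :
    ENNReal.ofReal (23153 / 16384 * sphereVol (finrank ℝ V)) ≤ volM V F univ :=
  main_of_certK hm hW hF hmin hng (by norm_num) okK_rows
    (fun _ he _ hT _ _ hN hw P Q Z Ξ => hpos hT.1 hT.2 he hN hw P Q Z Ξ)
    fun _ _ _ h1 h2 h3 h4 h5 h6 => hnum h1 h2 h3 h4 h5 h6

end

end Vale.Agent.P224.PU.U1413
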